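import Vale.Agent.P224.S11.Z11.Fr
import Vale.Agent.P224.S11.K.TS

/-!
The total of the truncated columns is the certified polynomial.
-/

namespace Vale.Agent.P224.S11.Z11

open Vale.Agent.P224.POS Vale.Agent.P224.S11
open Vale.Agent.P224.SP (ev Q4)

noncomputable section

/-- the approximate total minus the errors -/
def Qf : PE := .sub (Qz cl) (pW2 3 5 337748427 168875)

/-- the integers replacing the variables -/
def MsQ : List Nat := [
  Nat.add (Nat.pow 2 80) 170800340381741427,
  Nat.add (Nat.pow 2 774) 460183081081439995,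
  Nat.add (Nat.pow 2 3411) 430842249890626723,
  Nat.add (Nat.pow 2 20779) 578127933201632731,
  Nat.add (Nat.pow 2 48917) 203069658382583323]

set_option maxRecDepth 100000 in
lemma idQ : Vale.Agent.P224.POS.chk MsQ (.sub Qf Vale.Agent.P224.S11.K.TS.Q) = true := by
  decide +kernel

/-- **The total is the certified polynomial.** -/
theorem Qf_eq {R' : Type*} [CommRing R'] (f : ℕ → R') (hf : ∀ i, 5 ≤ i → f i = 0) :
    PE.ev f Qf = PE.ev f Vale.Agent.P224.S11.K.TS.Q := by
  have h := Vale.Agent.P224.POS.ev_eq_zero_of_chk idQ f fun i hi => hf i (by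
    have : MsQ.length = 5 := rfl
    omega)
  rw [PE.ev_sub, sub_eq_zero] at h
  exact h

end

end Vale.Agent.P224.S11.Z11
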