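import Vale.Agent.P224.S11.Z11.Dat

/-!
Certificate data in dimension eleven: the free columns.
-/

namespace Vale.Agent.P224.S11.Z11

open Vale.Agent.P224.POS Vale.Agent.P224.S11
open Vale.Agent.P224.SP (ev Q4)

noncomputable section

/-- the common denominator of the polynomial columns -/
def c0 : ℕ := 84437106688

/-- factor of the approximations -/
def kB : ℕ := 1

/-- factor of the polynomial columns -/
def kF : ℕ := 1

/-- free value column 0 -/
def vf0 : VFz := ⟨⟨6, 0, 0, 0, 0⟩, [6834946017696, -33150661809408, 62907790351680, -58139167816640, 24820720854720, -2493571167840, -822516547696],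
    .c 0,
    .c 0,
    .c 0,
    .c 0⟩

/-- free value column 1 -/
def vf1 : VFz := ⟨⟨6, 0, 0, 0, 1⟩, [-13669892035392, 66301323618816, -125815580703360, 116278335633280, -49641441709440, 4987142335680, 1645033095392],
    .c 0,
    .c 0,
    .c 0,
    .c 0⟩

/-- free value column 2 -/
def vf2 : VFz := ⟨⟨6, 0, 0, 0, 2⟩, [6834946017696, -33150661809408, 62907790351680, -58139167816640, 24820720854720, -2493571167840, -822516547696],
    .c 0,
    .mul (.c (-1)) (.mul (.mul (.add (.mul (.sub (.c (-10)) (.mul (.c 2) (.a))) (.P)) (.mul (.mul (.mul (.c 12) (.a)) (.add (.c 10) (.a))) (.s))) (.pow (.P) 3)) (.c 2)),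
    .c 0,
    .mul (.c (-1)) (.mul (.mul (.mul (.mul (.c 2) (.a)) (.add (.c 10) (.a))) (.pow (.P) 4)) (.c 2))⟩

/-- free value column 3 -/
def vf3 : VFz := ⟨⟨6, 0, 1, 0, 0⟩, [34052463803520, -177136331658816, 369512207019840, -391442531245120, 215602498336800, -54326446481952, 3653210764912],
    .c 0,
    .c 0,
    .c 0,
    .c 0⟩

/-- free value column 4 -/
def vf4 : VFz := ⟨⟨6, 0, 1, 0, 1⟩, [-54435035571648, 287971339698816, -613208833336320, 666606726856960, -381563554964160, 103665750628224, -8951454625216],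
    .c 0,
    .c 0,
    .c 0,
    .c 0⟩

/-- free value column 5 -/
def vf5 : VFz := ⟨⟨6, 0, 1, 0, 2⟩, [20382571768128, -110835008040000, 243696626316480, -275164195611840, 165961056627360, -49339304146272, 5298243860304],
    .c 0,
    .mul (.c (-1)) (.mul (.mul (.add (.mul (.sub (.c (-10)) (.mul (.c 2) (.a))) (.P)) (.mul (.mul (.mul (.c 12) (.a)) (.add (.c 10) (.a))) (.s))) (.pow (.P) 3)) (.mul (.c 2) (.t))),
    .c 0,
    .mul (.c (-1)) (.mul (.mul (.mul (.mul (.c 2) (.a)) (.add (.c 10) (.a))) (.pow (.P) 4)) (.mul (.c 2) (.t)))⟩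

/-- free value column 6 -/
def vf6 : VFz := ⟨⟨6, 0, 1, 1, 0⟩, [23800044776976, -127410338944704, 275150521492320, -304233779520160, 178371417054720, -50586089730192, 4886985586456],
    .mul (.c (-1)) (.mul (.mul (.add (.mul (.sub (.c (-10)) (.mul (.c 2) (.a))) (.P)) (.mul (.mul (.mul (.c 12) (.a)) (.add (.c 10) (.a))) (.s))) (.pow (.P) 3)) (.c (-2))),
    .c 0,
    .mul (.c (-1)) (.mul (.mul (.mul (.mul (.c 2) (.a)) (.add (.c 10) (.a))) (.pow (.P) 4)) (.c (-2))),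
    .c 0⟩

/-- free value column 7 -/
def vf7 : VFz := ⟨⟨6, 0, 1, 1, 1⟩, [-20382571768128, 110835008040000, -243696626316480, 275164195611840, -165961056627360, 49339304146272, -5298243860304],
    .mul (.c (-1)) (.mul (.mul (.add (.mul (.sub (.c (-10)) (.mul (.c 2) (.a))) (.P)) (.mul (.mul (.mul (.c 12) (.a)) (.add (.c 10) (.a))) (.s))) (.pow (.P) 3)) (.mul (.c (-2)) (.d))),
    .c 0,
    .mul (.c (-1)) (.mul (.mul (.mul (.mul (.c 2) (.a)) (.add (.c 10) (.a))) (.pow (.P) 4)) (.mul (.c (-2)) (.d))),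
    .c 0⟩

/-- free value column 8 -/
def vf8 : VFz := ⟨⟨6, 0, 2, 0, 0⟩, [23800044776976, -127410338944704, 275150521492320, -304233779520160, 178371417054720, -50586089730192, 4886985586456],
    .mul (.c (-1)) (.mul (.mul (.add (.mul (.sub (.c (-10)) (.mul (.c 2) (.a))) (.P)) (.mul (.mul (.mul (.c 12) (.a)) (.add (.c 10) (.a))) (.s))) (.pow (.P) 3)) (.c 2)),
    .c 0,
    .mul (.c (-1)) (.mul (.mul (.mul (.mul (.c 2) (.a)) (.add (.c 10) (.a))) (.pow (.P) 4)) (.c 2)),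
    .c 0⟩

/-- free value column 9 -/
def vf9 : VFz := ⟨⟨6, 0, 2, 0, 1⟩, [-20382571768128, 110835008040000, -243696626316480, 275164195611840, -165961056627360, 49339304146272, -5298243860304],
    .mul (.c (-1)) (.mul (.mul (.add (.mul (.sub (.c (-10)) (.mul (.c 2) (.a))) (.P)) (.mul (.mul (.mul (.c 12) (.a)) (.add (.c 10) (.a))) (.s))) (.pow (.P) 3)) (.mul (.c 2) (.d))),
    .c 0,
    .mul (.c (-1)) (.mul (.mul (.mul (.mul (.c 2) (.a)) (.add (.c 10) (.a))) (.pow (.P) 4)) (.mul (.c 2) (.d))),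
    .c 0⟩

/-- free value column 10 -/
def vf10 : VFz := ⟨⟨6, 0, 2, 1, 0⟩, [15286928826096, -83126256030000, 182772469737360, -206373146708880, 124470792470520, -37004478109704, 3973682895228],
    .mul (.c (-1)) (.mul (.mul (.add (.mul (.sub (.c (-10)) (.mul (.c 2) (.a))) (.P)) (.mul (.mul (.mul (.c 12) (.a)) (.add (.c 10) (.a))) (.s))) (.pow (.P) 3)) (.mul (.c (-2)) (.t))),
    .c 0,
    .mul (.c (-1)) (.mul (.mul (.mul (.mul (.c 2) (.a)) (.add (.c 10) (.a))) (.pow (.P) 4)) (.mul (.c (-2)) (.t))),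
    .c 0⟩

/-- free value column 11 -/
def vf11 : VFz := ⟨⟨6, 0, 3, 0, 0⟩, [5095642942032, -27708752010000, 60924156579120, -68791048902960, 41490264156840, -12334826036568, 1324560965076],
    .mul (.c (-1)) (.mul (.mul (.add (.mul (.sub (.c (-10)) (.mul (.c 2) (.a))) (.P)) (.mul (.mul (.mul (.c 12) (.a)) (.add (.c 10) (.a))) (.s))) (.pow (.P) 3)) (.mul (.c 6) (.t))),
    .c 0,
    .mul (.c (-1)) (.mul (.mul (.mul (.mul (.c 2) (.a)) (.add (.c 10) (.a))) (.pow (.P) 4)) (.mul (.c 6) (.t))),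
    .c 0⟩

/-- free value column 12 -/
def vf12 : VFz := ⟨⟨6, 1, 0, 0, 0⟩, [-13657123562832, 63533055310368, -113047820789760, 92503084725120, -27470533875840, -5690073322368, 3854230716768],
    .c 0,
    .c 0,
    .c 0,
    .c 0⟩

/-- free value column 13 -/
def vf13 : VFz := ⟨⟨6, 1, 0, 0, 1⟩, [13644355090272, -60764787001920, 100280060876160, -68727833816960, 5299626042240, 16367288980416, -6063428338144],
    .c 0,
    .c 0,
    .c 0,
    .c 0⟩

/-- free value column 14 -/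
def vf14 : VFz := ⟨⟨6, 1, 0, 0, 2⟩, [12768472560, -2768268308448, 12767759913600, -23775250908160, 22170907833600, -10677215658048, 2209197621376],
    .c 0,
    .mul (.c (-1)) (.mul (.mul (.mul (.add (.mul (.sub (.c (-10)) (.mul (.c 2) (.a))) (.P)) (.mul (.mul (.mul (.c 12) (.a)) (.add (.c 10) (.a))) (.s))) (.w)) (.pow (.P) 3)) (.c 2)),
    .c 0,
    .mul (.c (-1)) (.mul (.mul (.mul (.mul (.mul (.c 2) (.a)) (.add (.c 10) (.a))) (.w)) (.pow (.P) 4)) (.c 2))⟩

/-- free value column 15 -/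
def vf15 : VFz := ⟨⟨6, 1, 1, 0, 0⟩, [-54409498626528, 273172126367424, -543239854811040, 535718667351040, -261365399173920, 49176826636320, 911677613296],
    .c 0,
    .c 0,
    .c 0,
    .c 0⟩

/-- free value column 16 -/
def vf16 : VFz := ⟨⟨6, 1, 1, 0, 1⟩, [40739606591136, -197608126034112, 372990815409600, -336102774028160, 135867617341440, -11055191624832, -4711381513664],
    .c 0,
    .c 0,
    .c 0,
    .c 0⟩

/-- free value column 17 -/
def vf17 : VFz := ⟨⟨6, 1, 1, 0, 2⟩, [0, -9262676714496, 44433458698080, -83337557689600, 75856340123040, -33134492675808, 5444736995760],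
    .c 0,
    .mul (.c (-1)) (.mul (.mul (.mul (.add (.mul (.sub (.c (-10)) (.mul (.c 2) (.a))) (.P)) (.mul (.mul (.mul (.c 12) (.a)) (.add (.c 10) (.a))) (.s))) (.w)) (.pow (.P) 3)) (.mul (.c 2) (.t))),
    .c 0,
    .mul (.c (-1)) (.mul (.mul (.mul (.mul (.mul (.c 2) (.a)) (.add (.c 10) (.a))) (.w)) (.pow (.P) 4)) (.mul (.c 2) (.t)))⟩

/-- free value column 18 -/
def vf18 : VFz := ⟨⟨6, 1, 1, 1, 0⟩, [-20376187531848, 100188197171280, -192879287661600, 179939012468160, -79019262587520, 10866203641440, 1251091946144],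
    .mul (.c (-1)) (.mul (.mul (.mul (.add (.mul (.sub (.c (-10)) (.mul (.c 2) (.a))) (.P)) (.mul (.mul (.mul (.c 12) (.a)) (.add (.c 10) (.a))) (.s))) (.w)) (.pow (.P) 3)) (.c (-2))),
    .c 0,
    .mul (.c (-1)) (.mul (.mul (.mul (.mul (.mul (.c 2) (.a)) (.add (.c 10) (.a))) (.w)) (.pow (.P) 4)) (.c (-2))),
    .c 0⟩

/-- free value column 19 -/
def vf19 : VFz := ⟨⟨6, 1, 1, 1, 1⟩, [0, 9262676714496, -44433458698080, 83337557689600, -75856340123040, 33134492675808, -5444736995760],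
    .mul (.c (-1)) (.mul (.mul (.mul (.add (.mul (.sub (.c (-10)) (.mul (.c 2) (.a))) (.P)) (.mul (.mul (.mul (.c 12) (.a)) (.add (.c 10) (.a))) (.s))) (.w)) (.pow (.P) 3)) (.mul (.c (-2)) (.d))),
    .c 0,
    .mul (.c (-1)) (.mul (.mul (.mul (.mul (.mul (.c 2) (.a)) (.add (.c 10) (.a))) (.w)) (.pow (.P) 4)) (.mul (.c (-2)) (.d))),
    .c 0⟩

/-- free value column 20 -/
def vf20 : VFz := ⟨⟨6, 1, 2, 0, 0⟩, [-20376187531848, 100188197171280, -192879287661600, 179939012468160, -79019262587520, 10866203641440, 1251091946144],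
    .mul (.c (-1)) (.mul (.mul (.mul (.add (.mul (.sub (.c (-10)) (.mul (.c 2) (.a))) (.P)) (.mul (.mul (.mul (.c 12) (.a)) (.add (.c 10) (.a))) (.s))) (.w)) (.pow (.P) 3)) (.c 2)),
    .c 0,
    .mul (.c (-1)) (.mul (.mul (.mul (.mul (.mul (.c 2) (.a)) (.add (.c 10) (.a))) (.w)) (.pow (.P) 4)) (.c 2)),
    .c 0⟩

/-- free value column 21 -/
def vf21 : VFz := ⟨⟨6, 1, 2, 0, 1⟩, [0, 9262676714496, -44433458698080, 83337557689600, -75856340123040, 33134492675808, -5444736995760],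
    .mul (.c (-1)) (.mul (.mul (.mul (.add (.mul (.sub (.c (-10)) (.mul (.c 2) (.a))) (.P)) (.mul (.mul (.mul (.c 12) (.a)) (.add (.c 10) (.a))) (.s))) (.w)) (.pow (.P) 3)) (.mul (.c 2) (.d))),
    .c 0,
    .mul (.c (-1)) (.mul (.mul (.mul (.mul (.mul (.c 2) (.a)) (.add (.c 10) (.a))) (.w)) (.pow (.P) 4)) (.mul (.c 2) (.d))),
    .c 0⟩

/-- free value column 22 -/
def vf22 : VFz := ⟨⟨6, 1, 2, 1, 0⟩, [0, -6947007535872, 33325094023560, -62503168267200, 56892255092280, -24850869506856, 4083552746820],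
    .mul (.c (-1)) (.mul (.mul (.mul (.add (.mul (.sub (.c (-10)) (.mul (.c 2) (.a))) (.P)) (.mul (.mul (.mul (.c 12) (.a)) (.add (.c 10) (.a))) (.s))) (.w)) (.pow (.P) 3)) (.mul (.c (-2)) (.t))),
    .c 0,
    .mul (.c (-1)) (.mul (.mul (.mul (.mul (.mul (.c 2) (.a)) (.add (.c 10) (.a))) (.w)) (.pow (.P) 4)) (.mul (.c (-2)) (.t))),
    .c 0⟩

/-- free value column 23 -/
def vf23 : VFz := ⟨⟨6, 1, 3, 0, 0⟩, [0, -2315669178624, 11108364674520, -20834389422400, 18964085030760, -8283623168952, 1361184248940],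
    .mul (.c (-1)) (.mul (.mul (.mul (.add (.mul (.sub (.c (-10)) (.mul (.c 2) (.a))) (.P)) (.mul (.mul (.mul (.c 12) (.a)) (.add (.c 10) (.a))) (.s))) (.w)) (.pow (.P) 3)) (.mul (.c 6) (.t))),
    .c 0,
    .mul (.c (-1)) (.mul (.mul (.mul (.mul (.mul (.c 2) (.a)) (.add (.c 10) (.a))) (.w)) (.pow (.P) 4)) (.mul (.c 6) (.t))),
    .c 0⟩

/-- free value column 24 -/
def vf24 : VFz := ⟨⟨6, 2, 0, 0, 0⟩, [6809409072576, -27537886421856, 37073619735360, -11181003420160, -17549416634400, 17592143230272, -5119696934528],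
    .c 0,
    .c 0,
    .c 0,
    .c 0⟩

/-- free value column 25 -/
def vf25 : VFz := ⟨⟨6, 2, 0, 0, 1⟩, [25536945120, -5689014158208, 26132821405440, -46365826976640, 40398459311040, -18816997480128, 4175965530912],
    .c 0,
    .c 0,
    .c 0,
    .c 0⟩

/-- free value column 26 -/
def vf26 : VFz := ⟨⟨6, 2, 0, 0, 2⟩, [0, 76238770656, -298650789120, -592337419840, 1971678178080, -1268716917984, 121214855920],
    .c 0,
    .mul (.c (-1)) (.mul (.mul (.mul (.add (.mul (.sub (.c (-10)) (.mul (.c 2) (.a))) (.P)) (.mul (.mul (.mul (.c 12) (.a)) (.add (.c 10) (.a))) (.s))) (.pow (.w) 2)) (.pow (.P) 3)) (.c 2)),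
    .c 0,
    .mul (.c (-1)) (.mul (.mul (.mul (.mul (.mul (.c 2) (.a)) (.add (.c 10) (.a))) (.pow (.w) 2)) (.pow (.P) 4)) (.c 2))⟩

/-- free value column 27 -/
def vf27 : VFz := ⟨⟨6, 2, 1, 0, 0⟩, [20357034823008, -86606971731552, 131529444065760, -74089311154880, -7259675806560, 22478377127616, -6269492721360],
    .c 0,
    .c 0,
    .c 0,
    .c 0⟩

/-- free value column 28 -/
def vf28 : VFz := ⟨⟨6, 2, 1, 0, 1⟩, [0, -18705168412800, 83799105872640, -141558324741760, 109988509643520, -37194948399936, 3651638398144],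
    .c 0,
    .c 0,
    .c 0,
    .c 0⟩

/-- free value column 29 -/
def vf29 : VFz := ⟨⟨6, 2, 1, 0, 2⟩, [0, 13668721248, 2832556550880, -11966057898880, 18890407123200, -13268301557856, 3497702940768],
    .c 0,
    .mul (.c (-1)) (.mul (.mul (.mul (.add (.mul (.sub (.c (-10)) (.mul (.c 2) (.a))) (.P)) (.mul (.mul (.mul (.c 12) (.a)) (.add (.c 10) (.a))) (.s))) (.pow (.w) 2)) (.pow (.P) 3)) (.mul (.c 2) (.t))),
    .c 0,
    .mul (.c (-1)) (.mul (.mul (.mul (.mul (.mul (.c 2) (.a)) (.add (.c 10) (.a))) (.pow (.w) 2)) (.pow (.P) 4)) (.mul (.c 2) (.t)))⟩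

/-- free value column 30 -/
def vf30 : VFz := ⟨⟨6, 2, 1, 1, 0⟩, [0, 9314464821072, -41750227541760, 71075331080800, -55980093910800, 19231832658960, -1886426627032],
    .mul (.c (-1)) (.mul (.mul (.mul (.add (.mul (.sub (.c (-10)) (.mul (.c 2) (.a))) (.P)) (.mul (.mul (.mul (.c 12) (.a)) (.add (.c 10) (.a))) (.s))) (.pow (.w) 2)) (.pow (.P) 3)) (.c (-2))),
    .c 0,
    .mul (.c (-1)) (.mul (.mul (.mul (.mul (.mul (.c 2) (.a)) (.add (.c 10) (.a))) (.pow (.w) 2)) (.pow (.P) 4)) (.c (-2))),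
    .c 0⟩

/-- free value column 31 -/
def vf31 : VFz := ⟨⟨6, 2, 1, 1, 1⟩, [0, -13668721248, -2832556550880, 11966057898880, -18890407123200, 13268301557856, -3497702940768],
    .mul (.c (-1)) (.mul (.mul (.mul (.add (.mul (.sub (.c (-10)) (.mul (.c 2) (.a))) (.P)) (.mul (.mul (.mul (.c 12) (.a)) (.add (.c 10) (.a))) (.s))) (.pow (.w) 2)) (.pow (.P) 3)) (.mul (.c (-2)) (.d))),
    .c 0,
    .mul (.c (-1)) (.mul (.mul (.mul (.mul (.mul (.c 2) (.a)) (.add (.c 10) (.a))) (.pow (.w) 2)) (.pow (.P) 4)) (.mul (.c (-2)) (.d))),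
    .c 0⟩

/-- free value column 32 -/
def vf32 : VFz := ⟨⟨6, 2, 2, 0, 0⟩, [0, 9314464821072, -41750227541760, 71075331080800, -55980093910800, 19231832658960, -1886426627032],
    .mul (.c (-1)) (.mul (.mul (.mul (.add (.mul (.sub (.c (-10)) (.mul (.c 2) (.a))) (.P)) (.mul (.mul (.mul (.c 12) (.a)) (.add (.c 10) (.a))) (.s))) (.pow (.w) 2)) (.pow (.P) 3)) (.c 2)),
    .c 0,
    .mul (.c (-1)) (.mul (.mul (.mul (.mul (.mul (.c 2) (.a)) (.add (.c 10) (.a))) (.pow (.w) 2)) (.pow (.P) 4)) (.c 2)),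
    .c 0⟩

/-- free value column 33 -/
def vf33 : VFz := ⟨⟨6, 2, 2, 0, 1⟩, [0, -13668721248, -2832556550880, 11966057898880, -18890407123200, 13268301557856, -3497702940768],
    .mul (.c (-1)) (.mul (.mul (.mul (.add (.mul (.sub (.c (-10)) (.mul (.c 2) (.a))) (.P)) (.mul (.mul (.mul (.c 12) (.a)) (.add (.c 10) (.a))) (.s))) (.pow (.w) 2)) (.pow (.P) 3)) (.mul (.c 2) (.d))),
    .c 0,
    .mul (.c (-1)) (.mul (.mul (.mul (.mul (.mul (.c 2) (.a)) (.add (.c 10) (.a))) (.pow (.w) 2)) (.pow (.P) 4)) (.mul (.c 2) (.d))),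
    .c 0⟩

/-- free value column 34 -/
def vf34 : VFz := ⟨⟨6, 2, 2, 1, 0⟩, [0, 10251540936, 2124417413160, -8974543424160, 14167805342400, -9951226168392, 2623277205576],
    .mul (.c (-1)) (.mul (.mul (.mul (.add (.mul (.sub (.c (-10)) (.mul (.c 2) (.a))) (.P)) (.mul (.mul (.mul (.c 12) (.a)) (.add (.c 10) (.a))) (.s))) (.pow (.w) 2)) (.pow (.P) 3)) (.mul (.c (-2)) (.t))),
    .c 0,
    .mul (.c (-1)) (.mul (.mul (.mul (.mul (.mul (.c 2) (.a)) (.add (.c 10) (.a))) (.pow (.w) 2)) (.pow (.P) 4)) (.mul (.c (-2)) (.t))),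
    .c 0⟩

/-- free value column 35 -/
def vf35 : VFz := ⟨⟨6, 2, 3, 0, 0⟩, [0, 3417180312, 708139137720, -2991514474720, 4722601780800, -3317075389464, 874425735192],
    .mul (.c (-1)) (.mul (.mul (.mul (.add (.mul (.sub (.c (-10)) (.mul (.c 2) (.a))) (.P)) (.mul (.mul (.mul (.c 12) (.a)) (.add (.c 10) (.a))) (.s))) (.pow (.w) 2)) (.pow (.P) 3)) (.mul (.c 6) (.t))),
    .c 0,
    .mul (.c (-1)) (.mul (.mul (.mul (.mul (.mul (.c 2) (.a)) (.add (.c 10) (.a))) (.pow (.w) 2)) (.pow (.P) 4)) (.mul (.c 6) (.t))),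
    .c 0⟩

/-- free value column 36 -/
def vf36 : VFz := ⟨⟨6, 3, 0, 0, 0⟩, [12768472560, -2921628199584, 13548715617840, -22749271876480, 17908694488560, -7886205281184, 1997264789120],
    .c 0,
    .c 0,
    .c 0,
    .c 0⟩

/-- free value column 37 -/
def vf37 : VFz := ⟨⟨6, 3, 0, 0, 1⟩, [0, 154242240960, -964609830240, -867283223680, 4581070333920, -3044586917760, 181435952672],
    .c 0,
    .c 0,
    .c 0,
    .c 0⟩

/-- free value column 38 -/
def vf38 : VFz := ⟨⟨6, 3, 0, 0, 2⟩, [0, -882349824, 183654126000, -158695808000, -318856988880, 253576540896, 30496879584],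
    .c 0,
    .mul (.c (-1)) (.mul (.mul (.mul (.add (.mul (.sub (.c (-10)) (.mul (.c 2) (.a))) (.P)) (.mul (.mul (.mul (.c 12) (.a)) (.add (.c 10) (.a))) (.s))) (.pow (.w) 3)) (.pow (.P) 3)) (.c 2)),
    .c 0,
    .mul (.c (-1)) (.mul (.mul (.mul (.mul (.mul (.c 2) (.a)) (.add (.c 10) (.a))) (.pow (.w) 3)) (.pow (.P) 4)) (.c 2))⟩

/-- free value column 39 -/
def vf39 : VFz := ⟨⟨6, 3, 1, 0, 0⟩, [0, -9451284988704, 39690865761840, -58552924029440, 33863894216160, -4044088488192, -1546781272816],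
    .c 0,
    .c 0,
    .c 0,
    .c 0⟩

/-- free value column 40 -/
def vf40 : VFz := ⟨⟨6, 3, 1, 0, 1⟩, [0, 43159323648, 5381984179200, -23585193459200, 37679650877280, -26062184505792, 6563764991104],
    .c 0,
    .c 0,
    .c 0,
    .c 0⟩

/-- free value column 41 -/
def vf41 : VFz := ⟨⟨6, 3, 1, 0, 2⟩, [0, -7028590752, -42089664720, -14765361280, 369438673440, -490785845856, 185323565632],
    .c 0,
    .mul (.c (-1)) (.mul (.mul (.mul (.add (.mul (.sub (.c (-10)) (.mul (.c 2) (.a))) (.P)) (.mul (.mul (.mul (.c 12) (.a)) (.add (.c 10) (.a))) (.s))) (.pow (.w) 3)) (.pow (.P) 3)) (.mul (.c 2) (.t))),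
    .c 0,
    .mul (.c (-1)) (.mul (.mul (.mul (.mul (.mul (.c 2) (.a)) (.add (.c 10) (.a))) (.pow (.w) 3)) (.pow (.P) 4)) (.mul (.c 2) (.t)))⟩

/-- free value column 42 -/
def vf42 : VFz := ⟨⟨6, 3, 1, 1, 0⟩, [0, -21138486912, -2782819152600, 11871944633600, -18680396944200, 12904303982448, -3297130935344],
    .mul (.c (-1)) (.mul (.mul (.mul (.add (.mul (.sub (.c (-10)) (.mul (.c 2) (.a))) (.P)) (.mul (.mul (.mul (.c 12) (.a)) (.add (.c 10) (.a))) (.s))) (.pow (.w) 3)) (.pow (.P) 3)) (.c (-2))),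
    .c 0,
    .mul (.c (-1)) (.mul (.mul (.mul (.mul (.mul (.c 2) (.a)) (.add (.c 10) (.a))) (.pow (.w) 3)) (.pow (.P) 4)) (.c (-2))),
    .c 0⟩

/-- free value column 43 -/
def vf43 : VFz := ⟨⟨6, 3, 1, 1, 1⟩, [0, 7028590752, 42089664720, 14765361280, -369438673440, 490785845856, -185323565632],
    .mul (.c (-1)) (.mul (.mul (.mul (.add (.mul (.sub (.c (-10)) (.mul (.c 2) (.a))) (.P)) (.mul (.mul (.mul (.c 12) (.a)) (.add (.c 10) (.a))) (.s))) (.pow (.w) 3)) (.pow (.P) 3)) (.mul (.c (-2)) (.d))),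
    .c 0,
    .mul (.c (-1)) (.mul (.mul (.mul (.mul (.mul (.c 2) (.a)) (.add (.c 10) (.a))) (.pow (.w) 3)) (.pow (.P) 4)) (.mul (.c (-2)) (.d))),
    .c 0⟩

/-- free value column 44 -/
def vf44 : VFz := ⟨⟨6, 3, 2, 0, 0⟩, [0, -21138486912, -2782819152600, 11871944633600, -18680396944200, 12904303982448, -3297130935344],
    .mul (.c (-1)) (.mul (.mul (.mul (.add (.mul (.sub (.c (-10)) (.mul (.c 2) (.a))) (.P)) (.mul (.mul (.mul (.c 12) (.a)) (.add (.c 10) (.a))) (.s))) (.pow (.w) 3)) (.pow (.P) 3)) (.c 2)),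
    .c 0,
    .mul (.c (-1)) (.mul (.mul (.mul (.mul (.mul (.c 2) (.a)) (.add (.c 10) (.a))) (.pow (.w) 3)) (.pow (.P) 4)) (.c 2)),
    .c 0⟩

/-- free value column 45 -/
def vf45 : VFz := ⟨⟨6, 3, 2, 0, 1⟩, [0, 7028590752, 42089664720, 14765361280, -369438673440, 490785845856, -185323565632],
    .mul (.c (-1)) (.mul (.mul (.mul (.add (.mul (.sub (.c (-10)) (.mul (.c 2) (.a))) (.P)) (.mul (.mul (.mul (.c 12) (.a)) (.add (.c 10) (.a))) (.s))) (.pow (.w) 3)) (.pow (.P) 3)) (.mul (.c 2) (.d))),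
    .c 0,
    .mul (.c (-1)) (.mul (.mul (.mul (.mul (.mul (.c 2) (.a)) (.add (.c 10) (.a))) (.pow (.w) 3)) (.pow (.P) 4)) (.mul (.c 2) (.d))),
    .c 0⟩

/-- free value column 46 -/
def vf46 : VFz := ⟨⟨6, 3, 2, 1, 0⟩, [0, -5271443064, -31567248540, -11074020960, 277079005080, -368089384392, 138992674224],
    .mul (.c (-1)) (.mul (.mul (.mul (.add (.mul (.sub (.c (-10)) (.mul (.c 2) (.a))) (.P)) (.mul (.mul (.mul (.c 12) (.a)) (.add (.c 10) (.a))) (.s))) (.pow (.w) 3)) (.pow (.P) 3)) (.mul (.c (-2)) (.t))),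
    .c 0,
    .mul (.c (-1)) (.mul (.mul (.mul (.mul (.mul (.c 2) (.a)) (.add (.c 10) (.a))) (.pow (.w) 3)) (.pow (.P) 4)) (.mul (.c (-2)) (.t))),
    .c 0⟩

/-- free value column 47 -/
def vf47 : VFz := ⟨⟨6, 3, 3, 0, 0⟩, [0, -1757147688, -10522416180, -3691340320, 92359668360, -122696461464, 46330891408],
    .mul (.c (-1)) (.mul (.mul (.mul (.add (.mul (.sub (.c (-10)) (.mul (.c 2) (.a))) (.P)) (.mul (.mul (.mul (.c 12) (.a)) (.add (.c 10) (.a))) (.s))) (.pow (.w) 3)) (.pow (.P) 3)) (.mul (.c 6) (.t))),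
    .c 0,
    .mul (.c (-1)) (.mul (.mul (.mul (.mul (.mul (.c 2) (.a)) (.add (.c 10) (.a))) (.pow (.w) 3)) (.pow (.P) 4)) (.mul (.c 6) (.t))),
    .c 0⟩

/-- free value column 48 -/
def vf48 : VFz := ⟨⟨6, 4, 0, 0, 0⟩, [0, 78003470304, -665959041120, -274945803840, 2609392155840, -1775869999776, 60221096752],
    .c 0,
    .c 0,
    .c 0,
    .c 0⟩

/-- free value column 49 -/
def vf49 : VFz := ⟨⟨6, 4, 0, 0, 1⟩, [0, -1764699648, 367308252000, -317391616000, -637713977760, 507153081792, 60993759168],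
    .c 0,
    .c 0,
    .c 0,
    .c 0⟩

/-- free value column 50 -/
def vf50 : VFz := ⟨⟨6, 4, 1, 0, 0⟩, [0, 29490602400, 2549427628320, -11619135560320, 18789243754080, -12793882947936, 3066062050336],
    .c 0,
    .c 0,
    .c 0,
    .c 0⟩

/-- free value column 51 -/
def vf51 : VFz := ⟨⟨6, 4, 1, 0, 1⟩, [0, -14057181504, -84179329440, -29530722560, 738877346880, -981571691712, 370647131264],
    .c 0,
    .c 0,
    .c 0,
    .c 0⟩

/-- free value column 52 -/
def vf52 : VFz := ⟨⟨6, 4, 1, 1, 0⟩, [0, 7028590752, 42089664720, 14765361280, -369438673440, 490785845856, -185323565632],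
    .mul (.c (-1)) (.mul (.mul (.mul (.add (.mul (.sub (.c (-10)) (.mul (.c 2) (.a))) (.P)) (.mul (.mul (.mul (.c 12) (.a)) (.add (.c 10) (.a))) (.s))) (.pow (.w) 4)) (.pow (.P) 3)) (.c (-2))),
    .c 0,
    .mul (.c (-1)) (.mul (.mul (.mul (.mul (.mul (.c 2) (.a)) (.add (.c 10) (.a))) (.pow (.w) 4)) (.pow (.P) 4)) (.c (-2))),
    .c 0⟩

/-- free value column 53 -/
def vf53 : VFz := ⟨⟨6, 4, 2, 0, 0⟩, [0, 7028590752, 42089664720, 14765361280, -369438673440, 490785845856, -185323565632],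
    .mul (.c (-1)) (.mul (.mul (.mul (.add (.mul (.sub (.c (-10)) (.mul (.c 2) (.a))) (.P)) (.mul (.mul (.mul (.c 12) (.a)) (.add (.c 10) (.a))) (.s))) (.pow (.w) 4)) (.pow (.P) 3)) (.c 2)),
    .c 0,
    .mul (.c (-1)) (.mul (.mul (.mul (.mul (.mul (.c 2) (.a)) (.add (.c 10) (.a))) (.pow (.w) 4)) (.pow (.P) 4)) (.c 2)),
    .c 0⟩

/-- free value column 54 -/
def vf54 : VFz := ⟨⟨6, 5, 0, 0, 0⟩, [0, -882349824, 183654126000, -158695808000, -318856988880, 253576540896, 30496879584],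
    .c 0,
    .c 0,
    .c 0,
    .c 0⟩

/-- free value column 55 -/
def vf55 : VFz := ⟨⟨6, 5, 1, 0, 0⟩, [0, -7028590752, -42089664720, -14765361280, 369438673440, -490785845856, 185323565632],
    .c 0,
    .c 0,
    .c 0,
    .c 0⟩

/-- free value column 56 -/
def vf56 : VFz := ⟨⟨7, 0, 0, 0, 0⟩, [-13081100489232, 69808445872752, -152967061208400, 175605256156720, -111068681827840, 36805135547616, -5272854117424, 170860065808],
    .c 0,
    .c 0,
    .c 0,
    .c 0⟩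

/-- free value column 57 -/
def vf57 : VFz := ⟨⟨7, 0, 0, 0, 1⟩, [26162200978464, -139616891745504, 305934122416800, -351210512313440, 222137363655680, -73610271095232, 10545708234848, -341720131616],
    .c 0,
    .c 0,
    .c 0,
    .c 0⟩

/-- free value column 58 -/
def vf58 : VFz := ⟨⟨7, 0, 0, 0, 2⟩, [-13081100489232, 69808445872752, -152967061208400, 175605256156720, -111068681827840, 36805135547616, -5272854117424, 170860065808],
    .c 0,
    .mul (.c (-1)) (.mul (.mul (.add (.mul (.sub (.c (-10)) (.mul (.c 2) (.a))) (.P)) (.mul (.mul (.mul (.c 14) (.a)) (.add (.c 10) (.a))) (.s))) (.pow (.P) 2)) (.c 2)),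
    .c 0,
    .mul (.c (-1)) (.mul (.mul (.mul (.mul (.c 2) (.a)) (.add (.c 10) (.a))) (.pow (.P) 3)) (.c 2))⟩

/-- free value column 59 -/
def vf59 : VFz := ⟨⟨7, 0, 1, 0, 0⟩, [-62219182411488, 362813218529376, -882772659406848, 1153932596264960, -866528013228560, 368079623626992, -79787215520320, 6481632145888],
    .c 0,
    .c 0,
    .c 0,
    .c 0⟩

/-- free value column 60 -/
def vf60 : VFz := ⟨⟨7, 0, 1, 0, 1⟩, [98276163844512, -586009545313248, 1459611196396896, -1956654680216480, 1510918662801440, -662548976158752, 149028722805792, -12621544160160],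
    .c 0,
    .c 0,
    .c 0,
    .c 0⟩

/-- free value column 61 -/
def vf61 : VFz := ⟨⟨7, 0, 1, 0, 2⟩, [-36056981433024, 223196326783872, -576838536990048, 802722083951520, -644390649572880, 294469352531760, -69241507285472, 6139912014272],
    .c 0,
    .mul (.c (-1)) (.mul (.mul (.add (.mul (.sub (.c (-10)) (.mul (.c 2) (.a))) (.P)) (.mul (.mul (.mul (.c 14) (.a)) (.add (.c 10) (.a))) (.s))) (.pow (.P) 2)) (.mul (.c 2) (.t))),
    .c 0,
    .mul (.c (-1)) (.mul (.mul (.mul (.mul (.c 2) (.a)) (.add (.c 10) (.a))) (.pow (.P) 3)) (.mul (.c 2) (.t)))⟩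

/-- free value column 62 -/
def vf62 : VFz := ⟨⟨7, 0, 1, 1, 0⟩, [-346979272529112, 1805227059418920, -3339193836108528, 2579557481479960, -561521663624000, -194410069030896, 51429349510648, 6225342047176],
    .mul (.c (-1)) (.mul (.mul (.add (.mul (.sub (.c (-10)) (.mul (.c 2) (.a))) (.P)) (.mul (.mul (.mul (.c 14) (.a)) (.add (.c 10) (.a))) (.s))) (.pow (.P) 2)) (.c (-2))),
    .c 0,
    .mul (.c (-1)) (.mul (.mul (.mul (.mul (.c 2) (.a)) (.add (.c 10) (.a))) (.pow (.P) 3)) (.c (-2))),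
    .c 0⟩

/-- free value column 63 -/
def vf63 : VFz := ⟨⟨7, 0, 1, 1, 1⟩, [243968001048520, -1067381979269328, 1762074146946888, -1420160207583360, 571525634946720, -122846780236032, 31319038825576, -6139912014272],
    .mul (.c (-1)) (.mul (.mul (.add (.mul (.sub (.c (-10)) (.mul (.c 2) (.a))) (.P)) (.mul (.mul (.mul (.c 14) (.a)) (.add (.c 10) (.a))) (.s))) (.pow (.P) 2)) (.mul (.c (-2)) (.d))),
    .c 0,
    .mul (.c (-1)) (.mul (.mul (.mul (.mul (.c 2) (.a)) (.add (.c 10) (.a))) (.pow (.P) 3)) (.mul (.c (-2)) (.d))),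
    .c 0⟩

/-- free value column 64 -/
def vf64 : VFz := ⟨⟨7, 0, 1, 1, 2⟩, [-3936053876416, 24958384075200, -75397814596560, 114643311094080, -84271404496680, 24819485402112, -816170314376],
    .mul (.c (-1)) (.mul (.mul (.add (.mul (.sub (.c (-10)) (.mul (.c 2) (.a))) (.P)) (.mul (.mul (.mul (.c 14) (.a)) (.add (.c 10) (.a))) (.s))) (.pow (.P) 2)) (.mul (.c (-2)) (.pow (.d) 2))),
    .mul (.c (-1)) (.mul (.mul (.add (.mul (.sub (.c (-10)) (.mul (.c 2) (.a))) (.P)) (.mul (.mul (.mul (.c 14) (.a)) (.add (.c 10) (.a))) (.s))) (.pow (.P) 2)) (.mul (.c 2) (.pow (.t) 2))),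
    .mul (.c (-1)) (.mul (.mul (.mul (.mul (.c 2) (.a)) (.add (.c 10) (.a))) (.pow (.P) 3)) (.mul (.c (-2)) (.pow (.d) 2))),
    .mul (.c (-1)) (.mul (.mul (.mul (.mul (.c 2) (.a)) (.add (.c 10) (.a))) (.pow (.P) 3)) (.mul (.c 2) (.pow (.t) 2)))⟩

/-- free value column 65 -/
def vf65 : VFz := ⟨⟨7, 0, 2, 0, 0⟩, [253912101421000, -1239109191828024, 1881754071726912, -569221435232040, -1006871126342960, 869792880446256, -196817558827768, 6225342047176],
    .mul (.c (-1)) (.mul (.mul (.add (.mul (.sub (.c (-10)) (.mul (.c 2) (.a))) (.P)) (.mul (.mul (.mul (.c 14) (.a)) (.add (.c 10) (.a))) (.s))) (.pow (.P) 2)) (.c 2)),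
    .c 0,
    .mul (.c (-1)) (.mul (.mul (.mul (.mul (.c 2) (.a)) (.add (.c 10) (.a))) (.pow (.P) 3)) (.c 2)),
    .c 0⟩

/-- free value column 66 -/
def vf66 : VFz := ⟨⟨7, 0, 2, 0, 1⟩, [-156109822676808, 521155789400784, -306805814580552, -643857204696000, 1054341282185760, -565369866435936, 110428657002872, -6139912014272],
    .mul (.c (-1)) (.mul (.mul (.add (.mul (.sub (.c (-10)) (.mul (.c 2) (.a))) (.P)) (.mul (.mul (.mul (.c 14) (.a)) (.add (.c 10) (.a))) (.s))) (.pow (.P) 2)) (.mul (.c 2) (.d))),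
    .c 0,
    .mul (.c (-1)) (.mul (.mul (.mul (.mul (.c 2) (.a)) (.add (.c 10) (.a))) (.pow (.P) 3)) (.mul (.c 2) (.d))),
    .c 0⟩

/-- free value column 67 -/
def vf67 : VFz := ⟨⟨7, 0, 2, 0, 2⟩, [-3936053876416, 24958384075200, -75397814596560, 114643311094080, -84271404496680, 24819485402112, -816170314376],
    .mul (.c (-1)) (.mul (.mul (.add (.mul (.sub (.c (-10)) (.mul (.c 2) (.a))) (.P)) (.mul (.mul (.mul (.c 14) (.a)) (.add (.c 10) (.a))) (.s))) (.pow (.P) 2)) (.mul (.c 2) (.pow (.d) 2))),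
    .mul (.c (-1)) (.mul (.mul (.add (.mul (.sub (.c (-10)) (.mul (.c 2) (.a))) (.P)) (.mul (.mul (.mul (.c 14) (.a)) (.add (.c 10) (.a))) (.s))) (.pow (.P) 2)) (.mul (.c 2) (.pow (.t) 2))),
    .mul (.c (-1)) (.mul (.mul (.mul (.mul (.c 2) (.a)) (.add (.c 10) (.a))) (.pow (.P) 3)) (.mul (.c 2) (.pow (.d) 2))),
    .mul (.c (-1)) (.mul (.mul (.mul (.mul (.c 2) (.a)) (.add (.c 10) (.a))) (.pow (.P) 3)) (.mul (.c 2) (.pow (.t) 2)))⟩

/-- free value column 68 -/
def vf68 : VFz := ⟨⟨7, 0, 2, 1, 0⟩, [-56145698196772, 176240501771520, -167327838009816, 36699903963160, 38829048048240, -64315628459724, 31386659669640, 4604934010704],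
    .mul (.c (-1)) (.mul (.mul (.add (.mul (.sub (.c (-10)) (.mul (.c 2) (.a))) (.P)) (.mul (.mul (.mul (.c 14) (.a)) (.add (.c 10) (.a))) (.s))) (.pow (.P) 2)) (.mul (.c (-2)) (.t))),
    .c 0,
    .mul (.c (-1)) (.mul (.mul (.mul (.mul (.c 2) (.a)) (.add (.c 10) (.a))) (.pow (.P) 3)) (.mul (.c (-2)) (.t))),
    .c 0⟩

/-- free value column 69 -/
def vf69 : VFz := ⟨⟨7, 0, 2, 1, 1⟩, [-12786637956560, 22169253280848, 153084910119540, -466313255958400, 398462862300240, -44535802116528, -50167673636240],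
    .mul (.c (-1)) (.mul (.mul (.add (.mul (.sub (.c (-10)) (.mul (.c 2) (.a))) (.P)) (.mul (.mul (.mul (.c 14) (.a)) (.add (.c 10) (.a))) (.s))) (.pow (.P) 2)) (.mul (.mul (.c (-2)) (.t)) (.d))),
    .c 0,
    .mul (.c (-1)) (.mul (.mul (.mul (.mul (.c 2) (.a)) (.add (.c 10) (.a))) (.pow (.P) 3)) (.mul (.mul (.c (-2)) (.t)) (.d))),
    .c 0⟩

/-- free value column 70 -/
def vf70 : VFz := ⟨⟨7, 0, 2, 2, 0⟩, [-2952040407312, 18718788056400, -56548360947420, 85982483320560, -63203553372510, 18614614051584, -612127735782],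
    .mul (.c (-1)) (.mul (.mul (.add (.mul (.sub (.c (-10)) (.mul (.c 2) (.a))) (.P)) (.mul (.mul (.mul (.c 14) (.a)) (.add (.c 10) (.a))) (.s))) (.pow (.P) 2)) (.add (.mul (.c 2) (.pow (.u) 2)) (.mul (.c (-4)) (.pow (.t) 2)))),
    .c 0,
    .mul (.c (-1)) (.mul (.mul (.mul (.mul (.c 2) (.a)) (.add (.c 10) (.a))) (.pow (.P) 3)) (.add (.mul (.c 2) (.pow (.u) 2)) (.mul (.c (-4)) (.pow (.t) 2)))),
    .c 0⟩

/-- free value column 71 -/
def vf71 : VFz := ⟨⟨7, 0, 3, 0, 0⟩, [4344501258084, 146789361313152, -711101957366472, 1224595424364680, -1020305315607840, 458062922599932, -103892848212616, 1534978003568],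
    .mul (.c (-1)) (.mul (.mul (.add (.mul (.sub (.c (-10)) (.mul (.c 2) (.a))) (.P)) (.mul (.mul (.mul (.c 14) (.a)) (.add (.c 10) (.a))) (.s))) (.pow (.P) 2)) (.mul (.c 6) (.t))),
    .c 0,
    .mul (.c (-1)) (.mul (.mul (.mul (.mul (.c 2) (.a)) (.add (.c 10) (.a))) (.pow (.P) 3)) (.mul (.c 6) (.t))),
    .c 0⟩

/-- free value column 72 -/
def vf72 : VFz := ⟨⟨7, 0, 3, 0, 1⟩, [28530853462224, -122002789581648, 148506348266700, 7740011582080, -61377244313520, -54742139491920, 53432354893744],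
    .mul (.c (-1)) (.mul (.mul (.add (.mul (.sub (.c (-10)) (.mul (.c 2) (.a))) (.P)) (.mul (.mul (.mul (.c 14) (.a)) (.add (.c 10) (.a))) (.s))) (.pow (.P) 2)) (.mul (.mul (.c 6) (.t)) (.d))),
    .c 0,
    .mul (.c (-1)) (.mul (.mul (.mul (.mul (.c 2) (.a)) (.add (.c 10) (.a))) (.pow (.P) 3)) (.mul (.mul (.c 6) (.t)) (.d))),
    .c 0⟩

/-- free value column 73 -/
def vf73 : VFz := ⟨⟨7, 0, 3, 1, 0⟩, [-3936053876416, 24958384075200, -75397814596560, 114643311094080, -84271404496680, 24819485402112, -816170314376],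
    .mul (.c (-1)) (.mul (.mul (.add (.mul (.sub (.c (-10)) (.mul (.c 2) (.a))) (.P)) (.mul (.mul (.mul (.c 14) (.a)) (.add (.c 10) (.a))) (.s))) (.pow (.P) 2)) (.mul (.c (-2)) (.pow (.u) 2))),
    .c 0,
    .mul (.c (-1)) (.mul (.mul (.mul (.mul (.c 2) (.a)) (.add (.c 10) (.a))) (.pow (.P) 3)) (.mul (.c (-2)) (.pow (.u) 2))),
    .c 0⟩

/-- free value column 74 -/
def vf74 : VFz := ⟨⟨7, 0, 4, 0, 0⟩, [-984013469104, 6239596018800, -18849453649140, 28660827773520, -21067851124170, 6204871350528, -204042578594],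
    .mul (.c (-1)) (.mul (.mul (.add (.mul (.sub (.c (-10)) (.mul (.c 2) (.a))) (.P)) (.mul (.mul (.mul (.c 14) (.a)) (.add (.c 10) (.a))) (.s))) (.pow (.P) 2)) (.add (.mul (.c 2) (.pow (.u) 2)) (.mul (.c 12) (.pow (.t) 2)))),
    .c 0,
    .mul (.c (-1)) (.mul (.mul (.mul (.mul (.c 2) (.a)) (.add (.c 10) (.a))) (.pow (.P) 3)) (.add (.mul (.c 2) (.pow (.u) 2)) (.mul (.c 12) (.pow (.t) 2)))),
    .c 0⟩

/-- free value column 75 -/
def vf75 : VFz := ⟨⟨7, 1, 0, 0, 0⟩, [26162200978464, -139616891745504, 305934122416800, -351210512313440, 222137363655680, -73610271095232, 10545708234848, -341720131616],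
    .c 0,
    .c 0,
    .c 0,
    .c 0⟩

/-- free value column 76 -/
def vf76 : VFz := ⟨⟨7, 1, 0, 0, 1⟩, [-26162200978464, 139616891745504, -305934122416800, 351210512313440, -222137363655680, 73610271095232, -10545708234848, 341720131616],
    .c 0,
    .c 0,
    .c 0,
    .c 0⟩

/-- free value column 77 -/
def vf77 : VFz := ⟨⟨7, 1, 1, 0, 0⟩, [98276163844512, -586009545313248, 1459611196396896, -1956654680216480, 1510918662801440, -662548976158752, 149028722805792, -12621544160160],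
    .c 0,
    .c 0,
    .c 0,
    .c 0⟩

/-- free value column 78 -/
def vf78 : VFz := ⟨⟨7, 1, 1, 0, 1⟩, [-72113962866048, 446392653567744, -1153677073980096, 1605444167903040, -1288781299145760, 588938705063520, -138483014570944, 12279824028544],
    .c 0,
    .c 0,
    .c 0,
    .c 0⟩

/-- free value column 79 -/
def vf79 : VFz := ⟨⟨7, 1, 1, 1, 0⟩, [44692231395176, -49917351304032, -249566207338992, 442289457034880, -180263290962000, -34340356819536, 29763352473256, -6139912014272],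
    .mul (.c (-1)) (.mul (.mul (.mul (.add (.mul (.sub (.c (-10)) (.mul (.c 2) (.a))) (.P)) (.mul (.mul (.mul (.c 14) (.a)) (.add (.c 10) (.a))) (.s))) (.w)) (.pow (.P) 2)) (.c (-2))),
    .c 0,
    .mul (.c (-1)) (.mul (.mul (.mul (.mul (.mul (.c 2) (.a)) (.add (.c 10) (.a))) (.w)) (.pow (.P) 3)) (.c (-2))),
    .c 0⟩

/-- free value column 80 -/
def vf80 : VFz := ⟨⟨7, 1, 1, 1, 1⟩, [-7872107752832, -93312305540832, 315997693034280, -367419430921920, 207280538579760, -115647714154512, 50984808539152],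
    .mul (.c (-1)) (.mul (.mul (.mul (.add (.mul (.sub (.c (-10)) (.mul (.c 2) (.a))) (.P)) (.mul (.mul (.mul (.c 14) (.a)) (.add (.c 10) (.a))) (.s))) (.w)) (.pow (.P) 2)) (.mul (.c (-2)) (.d))),
    .c 0,
    .mul (.c (-1)) (.mul (.mul (.mul (.mul (.mul (.c 2) (.a)) (.add (.c 10) (.a))) (.w)) (.pow (.P) 3)) (.mul (.c (-2)) (.d))),
    .c 0⟩

/-- free value column 81 -/
def vf81 : VFz := ⟨⟨7, 1, 1, 1, 2⟩, [0, 1987211968272, -14051175954840, 49784573768160, -82426745099640, 61937146136928, -17275831976184],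
    .mul (.c (-1)) (.mul (.mul (.mul (.add (.mul (.sub (.c (-10)) (.mul (.c 2) (.a))) (.P)) (.mul (.mul (.mul (.c 14) (.a)) (.add (.c 10) (.a))) (.s))) (.w)) (.pow (.P) 2)) (.mul (.c (-2)) (.pow (.d) 2))),
    .mul (.c (-1)) (.mul (.mul (.mul (.add (.mul (.sub (.c (-10)) (.mul (.c 2) (.a))) (.P)) (.mul (.mul (.mul (.c 14) (.a)) (.add (.c 10) (.a))) (.s))) (.w)) (.pow (.P) 2)) (.mul (.c 2) (.pow (.t) 2))),
    .mul (.c (-1)) (.mul (.mul (.mul (.mul (.mul (.c 2) (.a)) (.add (.c 10) (.a))) (.w)) (.pow (.P) 3)) (.mul (.c (-2)) (.pow (.d) 2))),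
    .mul (.c (-1)) (.mul (.mul (.mul (.mul (.mul (.c 2) (.a)) (.add (.c 10) (.a))) (.w)) (.pow (.P) 3)) (.mul (.c 2) (.pow (.t) 2)))⟩

/-- free value column 82 -/
def vf82 : VFz := ⟨⟨7, 1, 2, 0, 0⟩, [43165946976536, -492334414627968, 1676732187795648, -2406737721777920, 1641276717895200, -530001997578576, 77432679402824, -6139912014272],
    .mul (.c (-1)) (.mul (.mul (.mul (.add (.mul (.sub (.c (-10)) (.mul (.c 2) (.a))) (.P)) (.mul (.mul (.mul (.c 14) (.a)) (.add (.c 10) (.a))) (.s))) (.w)) (.pow (.P) 2)) (.c 2)),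
    .c 0,
    .mul (.c (-1)) (.mul (.mul (.mul (.mul (.mul (.c 2) (.a)) (.add (.c 10) (.a))) (.w)) (.pow (.P) 3)) (.c 2)),
    .c 0⟩

/-- free value column 83 -/
def vf83 : VFz := ⟨⟨7, 1, 2, 0, 1⟩, [-7872107752832, 185196993968544, -561384247601160, 626854380225600, -214659176167920, -32822928784752, 14853838108080],
    .mul (.c (-1)) (.mul (.mul (.mul (.add (.mul (.sub (.c (-10)) (.mul (.c 2) (.a))) (.P)) (.mul (.mul (.mul (.c 14) (.a)) (.add (.c 10) (.a))) (.s))) (.w)) (.pow (.P) 2)) (.mul (.c 2) (.d))),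
    .c 0,
    .mul (.c (-1)) (.mul (.mul (.mul (.mul (.mul (.c 2) (.a)) (.add (.c 10) (.a))) (.w)) (.pow (.P) 3)) (.mul (.c 2) (.d))),
    .c 0⟩

/-- free value column 84 -/
def vf84 : VFz := ⟨⟨7, 1, 2, 0, 2⟩, [0, 1987211968272, -14051175954840, 49784573768160, -82426745099640, 61937146136928, -17275831976184],
    .mul (.c (-1)) (.mul (.mul (.mul (.add (.mul (.sub (.c (-10)) (.mul (.c 2) (.a))) (.P)) (.mul (.mul (.mul (.c 14) (.a)) (.add (.c 10) (.a))) (.s))) (.w)) (.pow (.P) 2)) (.mul (.c 2) (.pow (.d) 2))),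
    .mul (.c (-1)) (.mul (.mul (.mul (.add (.mul (.sub (.c (-10)) (.mul (.c 2) (.a))) (.P)) (.mul (.mul (.mul (.c 14) (.a)) (.add (.c 10) (.a))) (.s))) (.w)) (.pow (.P) 2)) (.mul (.c 2) (.pow (.t) 2))),
    .mul (.c (-1)) (.mul (.mul (.mul (.mul (.mul (.c 2) (.a)) (.add (.c 10) (.a))) (.w)) (.pow (.P) 3)) (.mul (.c 2) (.pow (.d) 2))),
    .mul (.c (-1)) (.mul (.mul (.mul (.mul (.mul (.c 2) (.a)) (.add (.c 10) (.a))) (.w)) (.pow (.P) 3)) (.mul (.c 2) (.pow (.t) 2)))⟩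

/-- free value column 85 -/
def vf85 : VFz := ⟨⟨7, 1, 2, 1, 0⟩, [11808161629248, -65783758956168, 295584949177560, -453233525046160, -62752424990880, 584607604664616, -310383571749412],
    .mul (.c (-1)) (.mul (.mul (.mul (.add (.mul (.sub (.c (-10)) (.mul (.c 2) (.a))) (.P)) (.mul (.mul (.mul (.c 14) (.a)) (.add (.c 10) (.a))) (.s))) (.w)) (.pow (.P) 2)) (.mul (.c (-2)) (.t))),
    .c 0,
    .mul (.c (-1)) (.mul (.mul (.mul (.mul (.mul (.c 2) (.a)) (.add (.c 10) (.a))) (.w)) (.pow (.P) 3)) (.mul (.c (-2)) (.t))),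
    .c 0⟩

/-- free value column 86 -/
def vf86 : VFz := ⟨⟨7, 1, 2, 1, 1⟩, [0, 12998385476280, -18205183064040, -228901266628480, 729575387021700, -778967446978704, 284288641017356],
    .mul (.c (-1)) (.mul (.mul (.mul (.add (.mul (.sub (.c (-10)) (.mul (.c 2) (.a))) (.P)) (.mul (.mul (.mul (.c 14) (.a)) (.add (.c 10) (.a))) (.s))) (.w)) (.pow (.P) 2)) (.mul (.mul (.c (-2)) (.t)) (.d))),
    .c 0,
    .mul (.c (-1)) (.mul (.mul (.mul (.mul (.mul (.c 2) (.a)) (.add (.c 10) (.a))) (.w)) (.pow (.P) 3)) (.mul (.mul (.c (-2)) (.t)) (.d))),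
    .c 0⟩

/-- free value column 87 -/
def vf87 : VFz := ⟨⟨7, 1, 2, 2, 0⟩, [0, 1490408976204, -10538381966130, 37338430326120, -61820058824730, 46452859602696, -12956873982138],
    .mul (.c (-1)) (.mul (.mul (.mul (.add (.mul (.sub (.c (-10)) (.mul (.c 2) (.a))) (.P)) (.mul (.mul (.mul (.c 14) (.a)) (.add (.c 10) (.a))) (.s))) (.w)) (.pow (.P) 2)) (.add (.mul (.c 2) (.pow (.u) 2)) (.mul (.c (-4)) (.pow (.t) 2)))),
    .c 0,
    .mul (.c (-1)) (.mul (.mul (.mul (.mul (.mul (.c 2) (.a)) (.add (.c 10) (.a))) (.w)) (.pow (.P) 3)) (.add (.mul (.c 2) (.pow (.u) 2)) (.mul (.c (-4)) (.pow (.t) 2)))),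
    .c 0⟩

/-- free value column 88 -/
def vf88 : VFz := ⟨⟨7, 1, 3, 0, 0⟩, [3936053876416, -26100929471544, -50198394610680, 193798575742480, 70131062579040, -436136961725352, 244544925102180],
    .mul (.c (-1)) (.mul (.mul (.mul (.add (.mul (.sub (.c (-10)) (.mul (.c 2) (.a))) (.P)) (.mul (.mul (.mul (.c 14) (.a)) (.add (.c 10) (.a))) (.s))) (.w)) (.pow (.P) 2)) (.mul (.c 6) (.t))),
    .c 0,
    .mul (.c (-1)) (.mul (.mul (.mul (.mul (.mul (.c 2) (.a)) (.add (.c 10) (.a))) (.w)) (.pow (.P) 3)) (.mul (.c 6) (.t))),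
    .c 0⟩

/-- free value column 89 -/
def vf89 : VFz := ⟨⟨7, 1, 3, 0, 1⟩, [0, -20947233349368, 74409886883400, 29762971555840, -399868406623140, 531218862430992, -215185313112620],
    .mul (.c (-1)) (.mul (.mul (.mul (.add (.mul (.sub (.c (-10)) (.mul (.c 2) (.a))) (.P)) (.mul (.mul (.mul (.c 14) (.a)) (.add (.c 10) (.a))) (.s))) (.w)) (.pow (.P) 2)) (.mul (.mul (.c 6) (.t)) (.d))),
    .c 0,
    .mul (.c (-1)) (.mul (.mul (.mul (.mul (.mul (.c 2) (.a)) (.add (.c 10) (.a))) (.w)) (.pow (.P) 3)) (.mul (.mul (.c 6) (.t)) (.d))),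
    .c 0⟩

/-- free value column 90 -/
def vf90 : VFz := ⟨⟨7, 1, 3, 1, 0⟩, [0, 1987211968272, -14051175954840, 49784573768160, -82426745099640, 61937146136928, -17275831976184],
    .mul (.c (-1)) (.mul (.mul (.mul (.add (.mul (.sub (.c (-10)) (.mul (.c 2) (.a))) (.P)) (.mul (.mul (.mul (.c 14) (.a)) (.add (.c 10) (.a))) (.s))) (.w)) (.pow (.P) 2)) (.mul (.c (-2)) (.pow (.u) 2))),
    .c 0,
    .mul (.c (-1)) (.mul (.mul (.mul (.mul (.mul (.c 2) (.a)) (.add (.c 10) (.a))) (.w)) (.pow (.P) 3)) (.mul (.c (-2)) (.pow (.u) 2))),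
    .c 0⟩

/-- free value column 91 -/
def vf91 : VFz := ⟨⟨7, 1, 4, 0, 0⟩, [0, 496802992068, -3512793988710, 12446143442040, -20606686274910, 15484286534232, -4318957994046],
    .mul (.c (-1)) (.mul (.mul (.mul (.add (.mul (.sub (.c (-10)) (.mul (.c 2) (.a))) (.P)) (.mul (.mul (.mul (.c 14) (.a)) (.add (.c 10) (.a))) (.s))) (.w)) (.pow (.P) 2)) (.add (.mul (.c 2) (.pow (.u) 2)) (.mul (.c 12) (.pow (.t) 2)))),
    .c 0,
    .mul (.c (-1)) (.mul (.mul (.mul (.mul (.mul (.c 2) (.a)) (.add (.c 10) (.a))) (.w)) (.pow (.P) 3)) (.add (.mul (.c 2) (.pow (.u) 2)) (.mul (.c 12) (.pow (.t) 2)))),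
    .c 0⟩

/-- free value column 92 -/
def vf92 : VFz := ⟨⟨7, 2, 0, 0, 0⟩, [-13081100489232, 69808445872752, -152967061208400, 175605256156720, -111068681827840, 36805135547616, -5272854117424, 170860065808],
    .c 0,
    .c 0,
    .c 0,
    .c 0⟩

/-- free value column 93 -/
def vf93 : VFz := ⟨⟨7, 2, 1, 0, 0⟩, [-36056981433024, 223196326783872, -576838536990048, 802722083951520, -644390649572880, 294469352531760, -69241507285472, 6139912014272],
    .c 0,
    .c 0,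
    .c 0,
    .c 0⟩

/-- free value column 94 -/
def vf94 : VFz := ⟨⟨7, 2, 1, 1, 0⟩, [-3936053876416, 32116225302336, -246067883567520, 411887636050080, 71795282610960, -531579016914816, 264144453761160],
    .mul (.c (-1)) (.mul (.mul (.mul (.add (.mul (.sub (.c (-10)) (.mul (.c 2) (.a))) (.P)) (.mul (.mul (.mul (.c 14) (.a)) (.add (.c 10) (.a))) (.s))) (.pow (.w) 2)) (.pow (.P) 2)) (.c (-2))),
    .c 0,
    .mul (.c (-1)) (.mul (.mul (.mul (.mul (.mul (.c 2) (.a)) (.add (.c 10) (.a))) (.pow (.w) 2)) (.pow (.P) 3)) (.c (-2))),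
    .c 0⟩

/-- free value column 95 -/
def vf95 : VFz := ⟨⟨7, 2, 1, 1, 1⟩, [0, 4916333472048, 55577594975880, -67477032992960, -163758306029520, 306452162990496, -132161809401784],
    .mul (.c (-1)) (.mul (.mul (.mul (.add (.mul (.sub (.c (-10)) (.mul (.c 2) (.a))) (.P)) (.mul (.mul (.mul (.c 14) (.a)) (.add (.c 10) (.a))) (.s))) (.pow (.w) 2)) (.pow (.P) 2)) (.mul (.c (-2)) (.d))),
    .c 0,
    .mul (.c (-1)) (.mul (.mul (.mul (.mul (.mul (.c 2) (.a)) (.add (.c 10) (.a))) (.pow (.w) 2)) (.pow (.P) 3)) (.mul (.c (-2)) (.d))),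
    .c 0⟩

/-- free value column 96 -/
def vf96 : VFz := ⟨⟨7, 2, 1, 1, 2⟩, [0, -44145087264, 4069931178240, -17405716081120, 25874324590800, -16543316279376, 4066040288816],
    .mul (.c (-1)) (.mul (.mul (.mul (.add (.mul (.sub (.c (-10)) (.mul (.c 2) (.a))) (.P)) (.mul (.mul (.mul (.c 14) (.a)) (.add (.c 10) (.a))) (.s))) (.pow (.w) 2)) (.pow (.P) 2)) (.mul (.c (-2)) (.pow (.d) 2))),
    .mul (.c (-1)) (.mul (.mul (.mul (.add (.mul (.sub (.c (-10)) (.mul (.c 2) (.a))) (.P)) (.mul (.mul (.mul (.c 14) (.a)) (.add (.c 10) (.a))) (.s))) (.pow (.w) 2)) (.pow (.P) 2)) (.mul (.c 2) (.pow (.t) 2))),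
    .mul (.c (-1)) (.mul (.mul (.mul (.mul (.mul (.c 2) (.a)) (.add (.c 10) (.a))) (.pow (.w) 2)) (.pow (.P) 3)) (.mul (.c (-2)) (.pow (.d) 2))),
    .mul (.c (-1)) (.mul (.mul (.mul (.mul (.mul (.c 2) (.a)) (.add (.c 10) (.a))) (.pow (.w) 2)) (.pow (.P) 3)) (.mul (.c 2) (.pow (.t) 2)))⟩

/-- free value column 97 -/
def vf97 : VFz := ⟨⟨7, 2, 2, 0, 0⟩, [-3936053876416, 9763404800448, 159616820550240, -416550741096800, 141117537975840, 300382770612576, -188541385907544],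
    .mul (.c (-1)) (.mul (.mul (.mul (.add (.mul (.sub (.c (-10)) (.mul (.c 2) (.a))) (.P)) (.mul (.mul (.mul (.c 14) (.a)) (.add (.c 10) (.a))) (.s))) (.pow (.w) 2)) (.pow (.P) 2)) (.c 2)),
    .c 0,
    .mul (.c (-1)) (.mul (.mul (.mul (.mul (.mul (.c 2) (.a)) (.add (.c 10) (.a))) (.pow (.w) 2)) (.pow (.P) 3)) (.c 2)),
    .c 0⟩

/-- free value column 98 -/
def vf98 : VFz := ⟨⟨7, 2, 2, 0, 1⟩, [0, 3209094750096, -128062023508200, 336238192390080, -269445972732240, 7469686674720, 46794320341784],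
    .mul (.c (-1)) (.mul (.mul (.mul (.add (.mul (.sub (.c (-10)) (.mul (.c 2) (.a))) (.P)) (.mul (.mul (.mul (.c 14) (.a)) (.add (.c 10) (.a))) (.s))) (.pow (.w) 2)) (.pow (.P) 2)) (.mul (.c 2) (.d))),
    .c 0,
    .mul (.c (-1)) (.mul (.mul (.mul (.mul (.mul (.c 2) (.a)) (.add (.c 10) (.a))) (.pow (.w) 2)) (.pow (.P) 3)) (.mul (.c 2) (.d))),
    .c 0⟩

/-- free value column 99 -/
def vf99 : VFz := ⟨⟨7, 2, 2, 0, 2⟩, [0, -44145087264, 4069931178240, -17405716081120, 25874324590800, -16543316279376, 4066040288816],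
    .mul (.c (-1)) (.mul (.mul (.mul (.add (.mul (.sub (.c (-10)) (.mul (.c 2) (.a))) (.P)) (.mul (.mul (.mul (.c 14) (.a)) (.add (.c 10) (.a))) (.s))) (.pow (.w) 2)) (.pow (.P) 2)) (.mul (.c 2) (.pow (.d) 2))),
    .mul (.c (-1)) (.mul (.mul (.mul (.add (.mul (.sub (.c (-10)) (.mul (.c 2) (.a))) (.P)) (.mul (.mul (.mul (.c 14) (.a)) (.add (.c 10) (.a))) (.s))) (.pow (.w) 2)) (.pow (.P) 2)) (.mul (.c 2) (.pow (.t) 2))),
    .mul (.c (-1)) (.mul (.mul (.mul (.mul (.mul (.c 2) (.a)) (.add (.c 10) (.a))) (.pow (.w) 2)) (.pow (.P) 3)) (.mul (.c 2) (.pow (.d) 2))),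
    .mul (.c (-1)) (.mul (.mul (.mul (.mul (.mul (.c 2) (.a)) (.add (.c 10) (.a))) (.pow (.w) 2)) (.pow (.P) 3)) (.mul (.c 2) (.pow (.t) 2)))⟩

/-- free value column 100 -/
def vf100 : VFz := ⟨⟨7, 2, 2, 1, 0⟩, [0, -3981420001968, 43378510633380, -417215502769440, 1135188984279900, -1200774740857776, 445868268056312],
    .mul (.c (-1)) (.mul (.mul (.mul (.add (.mul (.sub (.c (-10)) (.mul (.c 2) (.a))) (.P)) (.mul (.mul (.mul (.c 14) (.a)) (.add (.c 10) (.a))) (.s))) (.pow (.w) 2)) (.pow (.P) 2)) (.mul (.c (-2)) (.t))),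
    .c 0,
    .mul (.c (-1)) (.mul (.mul (.mul (.mul (.mul (.c 2) (.a)) (.add (.c 10) (.a))) (.pow (.w) 2)) (.pow (.P) 3)) (.mul (.c (-2)) (.t))),
    .c 0⟩

/-- free value column 101 -/
def vf101 : VFz := ⟨⟨7, 2, 2, 1, 1⟩, [0, -326330471472, -32220912395400, 219118435347200, -490866064642380, 473076572001192, -171448972151136],
    .mul (.c (-1)) (.mul (.mul (.mul (.add (.mul (.sub (.c (-10)) (.mul (.c 2) (.a))) (.P)) (.mul (.mul (.mul (.c 14) (.a)) (.add (.c 10) (.a))) (.s))) (.pow (.w) 2)) (.pow (.P) 2)) (.mul (.mul (.c (-2)) (.t)) (.d))),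
    .c 0,
    .mul (.c (-1)) (.mul (.mul (.mul (.mul (.mul (.c 2) (.a)) (.add (.c 10) (.a))) (.pow (.w) 2)) (.pow (.P) 3)) (.mul (.mul (.c (-2)) (.t)) (.d))),
    .c 0⟩

/-- free value column 102 -/
def vf102 : VFz := ⟨⟨7, 2, 2, 2, 0⟩, [0, -33108815448, 3052448383680, -13054287060840, 19405743443100, -12407487209532, 3049530216612],
    .mul (.c (-1)) (.mul (.mul (.mul (.add (.mul (.sub (.c (-10)) (.mul (.c 2) (.a))) (.P)) (.mul (.mul (.mul (.c 14) (.a)) (.add (.c 10) (.a))) (.s))) (.pow (.w) 2)) (.pow (.P) 2)) (.add (.mul (.c 2) (.pow (.u) 2)) (.mul (.c (-4)) (.pow (.t) 2)))),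
    .c 0,
    .mul (.c (-1)) (.mul (.mul (.mul (.mul (.mul (.c 2) (.a)) (.add (.c 10) (.a))) (.pow (.w) 2)) (.pow (.P) 3)) (.add (.mul (.c 2) (.pow (.u) 2)) (.mul (.c (-4)) (.pow (.t) 2)))),
    .c 0⟩

/-- free value column 103 -/
def vf103 : VFz := ⟨⟨7, 2, 3, 0, 0⟩, [0, -4144008220176, 29105917898940, 148454343372320, -701984705518140, 886852891192560, -360500778996312],
    .mul (.c (-1)) (.mul (.mul (.mul (.add (.mul (.sub (.c (-10)) (.mul (.c 2) (.a))) (.P)) (.mul (.mul (.mul (.c 14) (.a)) (.add (.c 10) (.a))) (.s))) (.pow (.w) 2)) (.pow (.P) 2)) (.mul (.c 6) (.t))),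
    .c 0,
    .mul (.c (-1)) (.mul (.mul (.mul (.mul (.mul (.c 2) (.a)) (.add (.c 10) (.a))) (.pow (.w) 2)) (.pow (.P) 3)) (.mul (.c 6) (.t))),
    .c 0⟩

/-- free value column 104 -/
def vf104 : VFz := ⟨⟨7, 2, 3, 0, 1⟩, [0, 502910820528, 15941187682440, -149495571022720, 387368766279180, -406903306883688, 155184810995872],
    .mul (.c (-1)) (.mul (.mul (.mul (.add (.mul (.sub (.c (-10)) (.mul (.c 2) (.a))) (.P)) (.mul (.mul (.mul (.c 14) (.a)) (.add (.c 10) (.a))) (.s))) (.pow (.w) 2)) (.pow (.P) 2)) (.mul (.mul (.c 6) (.t)) (.d))),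
    .c 0,
    .mul (.c (-1)) (.mul (.mul (.mul (.mul (.mul (.c 2) (.a)) (.add (.c 10) (.a))) (.pow (.w) 2)) (.pow (.P) 3)) (.mul (.mul (.c 6) (.t)) (.d))),
    .c 0⟩

/-- free value column 105 -/
def vf105 : VFz := ⟨⟨7, 2, 3, 1, 0⟩, [0, -44145087264, 4069931178240, -17405716081120, 25874324590800, -16543316279376, 4066040288816],
    .mul (.c (-1)) (.mul (.mul (.mul (.add (.mul (.sub (.c (-10)) (.mul (.c 2) (.a))) (.P)) (.mul (.mul (.mul (.c 14) (.a)) (.add (.c 10) (.a))) (.s))) (.pow (.w) 2)) (.pow (.P) 2)) (.mul (.c (-2)) (.pow (.u) 2))),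
    .c 0,
    .mul (.c (-1)) (.mul (.mul (.mul (.mul (.mul (.c 2) (.a)) (.add (.c 10) (.a))) (.pow (.w) 2)) (.pow (.P) 3)) (.mul (.c (-2)) (.pow (.u) 2))),
    .c 0⟩

/-- free value column 106 -/
def vf106 : VFz := ⟨⟨7, 2, 4, 0, 0⟩, [0, -11036271816, 1017482794560, -4351429020280, 6468581147700, -4135829069844, 1016510072204],
    .mul (.c (-1)) (.mul (.mul (.mul (.add (.mul (.sub (.c (-10)) (.mul (.c 2) (.a))) (.P)) (.mul (.mul (.mul (.c 14) (.a)) (.add (.c 10) (.a))) (.s))) (.pow (.w) 2)) (.pow (.P) 2)) (.add (.mul (.c 2) (.pow (.u) 2)) (.mul (.c 12) (.pow (.t) 2)))),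
    .c 0,
    .mul (.c (-1)) (.mul (.mul (.mul (.mul (.mul (.c 2) (.a)) (.add (.c 10) (.a))) (.pow (.w) 2)) (.pow (.P) 3)) (.add (.mul (.c 2) (.pow (.u) 2)) (.mul (.c 12) (.pow (.t) 2)))),
    .c 0⟩

/-- free value column 107 -/
def vf107 : VFz := ⟨⟨7, 3, 1, 1, 0⟩, [0, 469847930208, -12477122845560, 212468176039840, -594180999070080, 580038631487616, -188644262341424],
    .mul (.c (-1)) (.mul (.mul (.mul (.add (.mul (.sub (.c (-10)) (.mul (.c 2) (.a))) (.P)) (.mul (.mul (.mul (.c 14) (.a)) (.add (.c 10) (.a))) (.s))) (.pow (.w) 3)) (.pow (.P) 2)) (.c (-2))),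
    .c 0,
    .mul (.c (-1)) (.mul (.mul (.mul (.mul (.mul (.c 2) (.a)) (.add (.c 10) (.a))) (.pow (.w) 3)) (.pow (.P) 3)) (.c (-2))),
    .c 0⟩

/-- free value column 108 -/
def vf108 : VFz := ⟨⟨7, 3, 1, 1, 1⟩, [0, -676236370176, 11400328528080, -91500901913440, 204570867603480, -207956303569632, 80813557815320],
    .mul (.c (-1)) (.mul (.mul (.mul (.add (.mul (.sub (.c (-10)) (.mul (.c 2) (.a))) (.P)) (.mul (.mul (.mul (.c 14) (.a)) (.add (.c 10) (.a))) (.s))) (.pow (.w) 3)) (.pow (.P) 2)) (.mul (.c (-2)) (.d))),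
    .c 0,
    .mul (.c (-1)) (.mul (.mul (.mul (.mul (.mul (.c 2) (.a)) (.add (.c 10) (.a))) (.pow (.w) 3)) (.pow (.P) 3)) (.mul (.c (-2)) (.d))),
    .c 0⟩

/-- free value column 109 -/
def vf109 : VFz := ⟨⟨7, 3, 1, 1, 2⟩, [0, -53050805760, -1401119759040, 5536145510560, -6728333339160, 3336229582176, -681418529672],
    .mul (.c (-1)) (.mul (.mul (.mul (.add (.mul (.sub (.c (-10)) (.mul (.c 2) (.a))) (.P)) (.mul (.mul (.mul (.c 14) (.a)) (.add (.c 10) (.a))) (.s))) (.pow (.w) 3)) (.pow (.P) 2)) (.mul (.c (-2)) (.pow (.d) 2))),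
    .mul (.c (-1)) (.mul (.mul (.mul (.add (.mul (.sub (.c (-10)) (.mul (.c 2) (.a))) (.P)) (.mul (.mul (.mul (.c 14) (.a)) (.add (.c 10) (.a))) (.s))) (.pow (.w) 3)) (.pow (.P) 2)) (.mul (.c 2) (.pow (.t) 2))),
    .mul (.c (-1)) (.mul (.mul (.mul (.mul (.mul (.c 2) (.a)) (.add (.c 10) (.a))) (.pow (.w) 3)) (.pow (.P) 3)) (.mul (.c (-2)) (.pow (.d) 2))),
    .mul (.c (-1)) (.mul (.mul (.mul (.mul (.mul (.c 2) (.a)) (.add (.c 10) (.a))) (.pow (.w) 3)) (.pow (.P) 3)) (.mul (.c 2) (.pow (.t) 2)))⟩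

/-- free value column 110 -/
def vf110 : VFz := ⟨⟨7, 3, 2, 0, 0⟩, [0, 3575054743872, -34707193295160, -32203873157920, 312373543829280, -383318614931904, 136465600174448],
    .mul (.c (-1)) (.mul (.mul (.mul (.add (.mul (.sub (.c (-10)) (.mul (.c 2) (.a))) (.P)) (.mul (.mul (.mul (.c 14) (.a)) (.add (.c 10) (.a))) (.s))) (.pow (.w) 3)) (.pow (.P) 2)) (.c 2)),
    .c 0,
    .mul (.c (-1)) (.mul (.mul (.mul (.mul (.mul (.c 2) (.a)) (.add (.c 10) (.a))) (.pow (.w) 3)) (.pow (.P) 3)) (.c 2)),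
    .c 0⟩

/-- free value column 111 -/
def vf111 : VFz := ⟨⟨7, 3, 2, 0, 1⟩, [0, 711859244160, 10483875221040, -266544453280, -74160235883640, 128438120123424, -61823722541368],
    .mul (.c (-1)) (.mul (.mul (.mul (.add (.mul (.sub (.c (-10)) (.mul (.c 2) (.a))) (.P)) (.mul (.mul (.mul (.c 14) (.a)) (.add (.c 10) (.a))) (.s))) (.pow (.w) 3)) (.pow (.P) 2)) (.mul (.c 2) (.d))),
    .c 0,
    .mul (.c (-1)) (.mul (.mul (.mul (.mul (.mul (.c 2) (.a)) (.add (.c 10) (.a))) (.pow (.w) 3)) (.pow (.P) 3)) (.mul (.c 2) (.d))),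
    .c 0⟩

/-- free value column 112 -/
def vf112 : VFz := ⟨⟨7, 3, 2, 0, 2⟩, [0, -53050805760, -1401119759040, 5536145510560, -6728333339160, 3336229582176, -681418529672],
    .mul (.c (-1)) (.mul (.mul (.mul (.add (.mul (.sub (.c (-10)) (.mul (.c 2) (.a))) (.P)) (.mul (.mul (.mul (.c 14) (.a)) (.add (.c 10) (.a))) (.s))) (.pow (.w) 3)) (.pow (.P) 2)) (.mul (.c 2) (.pow (.d) 2))),
    .mul (.c (-1)) (.mul (.mul (.mul (.add (.mul (.sub (.c (-10)) (.mul (.c 2) (.a))) (.P)) (.mul (.mul (.mul (.c 14) (.a)) (.add (.c 10) (.a))) (.s))) (.pow (.w) 3)) (.pow (.P) 2)) (.mul (.c 2) (.pow (.t) 2))),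
    .mul (.c (-1)) (.mul (.mul (.mul (.mul (.mul (.c 2) (.a)) (.add (.c 10) (.a))) (.pow (.w) 3)) (.pow (.P) 3)) (.mul (.c 2) (.pow (.d) 2))),
    .mul (.c (-1)) (.mul (.mul (.mul (.mul (.mul (.c 2) (.a)) (.add (.c 10) (.a))) (.pow (.w) 3)) (.pow (.P) 3)) (.mul (.c 2) (.pow (.t) 2)))⟩

/-- free value column 113 -/
def vf113 : VFz := ⟨⟨7, 3, 2, 1, 0⟩, [0, -304652026680, -21515409585660, 136279690382160, -298277372763180, 295212709141032, -111892653231788],
    .mul (.c (-1)) (.mul (.mul (.mul (.add (.mul (.sub (.c (-10)) (.mul (.c 2) (.a))) (.P)) (.mul (.mul (.mul (.c 14) (.a)) (.add (.c 10) (.a))) (.s))) (.pow (.w) 3)) (.pow (.P) 2)) (.mul (.c (-2)) (.t))),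
    .c 0,
    .mul (.c (-1)) (.mul (.mul (.mul (.mul (.mul (.c 2) (.a)) (.add (.c 10) (.a))) (.pow (.w) 3)) (.pow (.P) 3)) (.mul (.c (-2)) (.t))),
    .c 0⟩

/-- free value column 114 -/
def vf114 : VFz := ⟨⟨7, 3, 2, 1, 1⟩, [0, 122645060688, 6097606228140, -40751604984560, 89240690073780, -81872865695280, 28568474688220],
    .mul (.c (-1)) (.mul (.mul (.mul (.add (.mul (.sub (.c (-10)) (.mul (.c 2) (.a))) (.P)) (.mul (.mul (.mul (.c 14) (.a)) (.add (.c 10) (.a))) (.s))) (.pow (.w) 3)) (.pow (.P) 2)) (.mul (.mul (.c (-2)) (.t)) (.d))),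
    .c 0,
    .mul (.c (-1)) (.mul (.mul (.mul (.mul (.mul (.c 2) (.a)) (.add (.c 10) (.a))) (.pow (.w) 3)) (.pow (.P) 3)) (.mul (.mul (.c (-2)) (.t)) (.d))),
    .c 0⟩

/-- free value column 115 -/
def vf115 : VFz := ⟨⟨7, 3, 2, 2, 0⟩, [0, -39788104320, -1050839819280, 4152109132920, -5046250004370, 2502172186632, -511063897254],
    .mul (.c (-1)) (.mul (.mul (.mul (.add (.mul (.sub (.c (-10)) (.mul (.c 2) (.a))) (.P)) (.mul (.mul (.mul (.c 14) (.a)) (.add (.c 10) (.a))) (.s))) (.pow (.w) 3)) (.pow (.P) 2)) (.add (.mul (.c 2) (.pow (.u) 2)) (.mul (.c (-4)) (.pow (.t) 2)))),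
    .c 0,
    .mul (.c (-1)) (.mul (.mul (.mul (.mul (.mul (.c 2) (.a)) (.add (.c 10) (.a))) (.pow (.w) 3)) (.pow (.P) 3)) (.add (.mul (.c 2) (.pow (.u) 2)) (.mul (.c (-4)) (.pow (.t) 2)))),
    .c 0⟩

/-- free value column 116 -/
def vf116 : VFz := ⟨⟨7, 3, 3, 0, 0⟩, [0, 269029152696, -368794163460, -44512244015440, 167866741043340, -215694525694824, 92902817957836],
    .mul (.c (-1)) (.mul (.mul (.mul (.add (.mul (.sub (.c (-10)) (.mul (.c 2) (.a))) (.P)) (.mul (.mul (.mul (.c 14) (.a)) (.add (.c 10) (.a))) (.s))) (.pow (.w) 3)) (.pow (.P) 2)) (.mul (.c 6) (.t))),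
    .c 0,
    .mul (.c (-1)) (.mul (.mul (.mul (.mul (.mul (.c 2) (.a)) (.add (.c 10) (.a))) (.pow (.w) 3)) (.pow (.P) 3)) (.mul (.c 6) (.t))),
    .c 0⟩

/-- free value column 117 -/
def vf117 : VFz := ⟨⟨7, 3, 3, 0, 1⟩, [0, 89558162352, -493127191980, 18607022942320, -62327356717140, 68527947366576, -25842800569532],
    .mul (.c (-1)) (.mul (.mul (.mul (.add (.mul (.sub (.c (-10)) (.mul (.c 2) (.a))) (.P)) (.mul (.mul (.mul (.c 14) (.a)) (.add (.c 10) (.a))) (.s))) (.pow (.w) 3)) (.pow (.P) 2)) (.mul (.mul (.c 6) (.t)) (.d))),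
    .c 0,
    .mul (.c (-1)) (.mul (.mul (.mul (.mul (.mul (.c 2) (.a)) (.add (.c 10) (.a))) (.pow (.w) 3)) (.pow (.P) 3)) (.mul (.mul (.c 6) (.t)) (.d))),
    .c 0⟩

/-- free value column 118 -/
def vf118 : VFz := ⟨⟨7, 3, 3, 1, 0⟩, [0, -53050805760, -1401119759040, 5536145510560, -6728333339160, 3336229582176, -681418529672],
    .mul (.c (-1)) (.mul (.mul (.mul (.add (.mul (.sub (.c (-10)) (.mul (.c 2) (.a))) (.P)) (.mul (.mul (.mul (.c 14) (.a)) (.add (.c 10) (.a))) (.s))) (.pow (.w) 3)) (.pow (.P) 2)) (.mul (.c (-2)) (.pow (.u) 2))),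
    .c 0,
    .mul (.c (-1)) (.mul (.mul (.mul (.mul (.mul (.c 2) (.a)) (.add (.c 10) (.a))) (.pow (.w) 3)) (.pow (.P) 3)) (.mul (.c (-2)) (.pow (.u) 2))),
    .c 0⟩

/-- free value column 119 -/
def vf119 : VFz := ⟨⟨7, 3, 4, 0, 0⟩, [0, -13262701440, -350279939760, 1384036377640, -1682083334790, 834057395544, -170354632418],
    .mul (.c (-1)) (.mul (.mul (.mul (.add (.mul (.sub (.c (-10)) (.mul (.c 2) (.a))) (.P)) (.mul (.mul (.mul (.c 14) (.a)) (.add (.c 10) (.a))) (.s))) (.pow (.w) 3)) (.pow (.P) 2)) (.add (.mul (.c 2) (.pow (.u) 2)) (.mul (.c 12) (.pow (.t) 2)))),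
    .c 0,
    .mul (.c (-1)) (.mul (.mul (.mul (.mul (.mul (.c 2) (.a)) (.add (.c 10) (.a))) (.pow (.w) 3)) (.pow (.P) 3)) (.add (.mul (.c 2) (.pow (.u) 2)) (.mul (.c 12) (.pow (.t) 2)))),
    .c 0⟩

/-- free value column 120 -/
def vf120 : VFz := ⟨⟨7, 4, 1, 1, 0⟩, [0, 61956524256, 6872170696320, -28478007102240, 39330991269120, -23215775443728, 5428877348160],
    .mul (.c (-1)) (.mul (.mul (.mul (.add (.mul (.sub (.c (-10)) (.mul (.c 2) (.a))) (.P)) (.mul (.mul (.mul (.c 14) (.a)) (.add (.c 10) (.a))) (.s))) (.pow (.w) 4)) (.pow (.P) 2)) (.c (-2))),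
    .c 0,
    .mul (.c (-1)) (.mul (.mul (.mul (.mul (.mul (.c 2) (.a)) (.add (.c 10) (.a))) (.pow (.w) 4)) (.pow (.P) 3)) (.c (-2))),
    .c 0⟩

/-- free value column 121 -/
def vf121 : VFz := ⟨⟨7, 4, 1, 1, 1⟩, [0, -106101611520, -2802239518080, 11072291021120, -13456666678320, 6672459164352, -1362837059344],
    .mul (.c (-1)) (.mul (.mul (.mul (.add (.mul (.sub (.c (-10)) (.mul (.c 2) (.a))) (.P)) (.mul (.mul (.mul (.c 14) (.a)) (.add (.c 10) (.a))) (.s))) (.pow (.w) 4)) (.pow (.P) 2)) (.mul (.c (-2)) (.d))),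
    .c 0,
    .mul (.c (-1)) (.mul (.mul (.mul (.mul (.mul (.c 2) (.a)) (.add (.c 10) (.a))) (.pow (.w) 4)) (.pow (.P) 3)) (.mul (.c (-2)) (.d))),
    .c 0⟩

/-- free value column 122 -/
def vf122 : VFz := ⟨⟨7, 4, 2, 0, 0⟩, [0, 61956524256, 6872170696320, -28478007102240, 39330991269120, -23215775443728, 5428877348160],
    .mul (.c (-1)) (.mul (.mul (.mul (.add (.mul (.sub (.c (-10)) (.mul (.c 2) (.a))) (.P)) (.mul (.mul (.mul (.c 14) (.a)) (.add (.c 10) (.a))) (.s))) (.pow (.w) 4)) (.pow (.P) 2)) (.c 2)),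
    .c 0,
    .mul (.c (-1)) (.mul (.mul (.mul (.mul (.mul (.c 2) (.a)) (.add (.c 10) (.a))) (.pow (.w) 4)) (.pow (.P) 3)) (.c 2)),
    .c 0⟩

/-- free value column 123 -/
def vf123 : VFz := ⟨⟨7, 4, 2, 0, 1⟩, [0, -106101611520, -2802239518080, 11072291021120, -13456666678320, 6672459164352, -1362837059344],
    .mul (.c (-1)) (.mul (.mul (.mul (.add (.mul (.sub (.c (-10)) (.mul (.c 2) (.a))) (.P)) (.mul (.mul (.mul (.c 14) (.a)) (.add (.c 10) (.a))) (.s))) (.pow (.w) 4)) (.pow (.P) 2)) (.mul (.c 2) (.d))),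
    .c 0,
    .mul (.c (-1)) (.mul (.mul (.mul (.mul (.mul (.c 2) (.a)) (.add (.c 10) (.a))) (.pow (.w) 4)) (.pow (.P) 3)) (.mul (.c 2) (.d))),
    .c 0⟩

/-- free value column 124 -/
def vf124 : VFz := ⟨⟨7, 4, 2, 1, 0⟩, [0, 159152417280, 4203359277120, -16608436531680, 20185000017480, -10008688746528, 2044255589016],
    .mul (.c (-1)) (.mul (.mul (.mul (.add (.mul (.sub (.c (-10)) (.mul (.c 2) (.a))) (.P)) (.mul (.mul (.mul (.c 14) (.a)) (.add (.c 10) (.a))) (.s))) (.pow (.w) 4)) (.pow (.P) 2)) (.mul (.c (-2)) (.t))),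
    .c 0,
    .mul (.c (-1)) (.mul (.mul (.mul (.mul (.mul (.c 2) (.a)) (.add (.c 10) (.a))) (.pow (.w) 4)) (.pow (.P) 3)) (.mul (.c (-2)) (.t))),
    .c 0⟩

/-- free value column 125 -/
def vf125 : VFz := ⟨⟨7, 4, 3, 0, 0⟩, [0, 53050805760, 1401119759040, -5536145510560, 6728333339160, -3336229582176, 681418529672],
    .mul (.c (-1)) (.mul (.mul (.mul (.add (.mul (.sub (.c (-10)) (.mul (.c 2) (.a))) (.P)) (.mul (.mul (.mul (.c 14) (.a)) (.add (.c 10) (.a))) (.s))) (.pow (.w) 4)) (.pow (.P) 2)) (.mul (.c 6) (.t))),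
    .c 0,
    .mul (.c (-1)) (.mul (.mul (.mul (.mul (.mul (.c 2) (.a)) (.add (.c 10) (.a))) (.pow (.w) 4)) (.pow (.P) 3)) (.mul (.c 6) (.t))),
    .c 0⟩

/-- free value column 126 -/
def vf126 : VFz := ⟨⟨7, 5, 1, 1, 0⟩, [0, -53050805760, -1401119759040, 5536145510560, -6728333339160, 3336229582176, -681418529672],
    .mul (.c (-1)) (.mul (.mul (.mul (.add (.mul (.sub (.c (-10)) (.mul (.c 2) (.a))) (.P)) (.mul (.mul (.mul (.c 14) (.a)) (.add (.c 10) (.a))) (.s))) (.pow (.w) 5)) (.pow (.P) 2)) (.c (-2))),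
    .c 0,
    .mul (.c (-1)) (.mul (.mul (.mul (.mul (.mul (.c 2) (.a)) (.add (.c 10) (.a))) (.pow (.w) 5)) (.pow (.P) 3)) (.c (-2))),
    .c 0⟩

/-- free value column 127 -/
def vf127 : VFz := ⟨⟨7, 5, 2, 0, 0⟩, [0, -53050805760, -1401119759040, 5536145510560, -6728333339160, 3336229582176, -681418529672],
    .mul (.c (-1)) (.mul (.mul (.mul (.add (.mul (.sub (.c (-10)) (.mul (.c 2) (.a))) (.P)) (.mul (.mul (.mul (.c 14) (.a)) (.add (.c 10) (.a))) (.s))) (.pow (.w) 5)) (.pow (.P) 2)) (.c 2)),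
    .c 0,
    .mul (.c (-1)) (.mul (.mul (.mul (.mul (.mul (.c 2) (.a)) (.add (.c 10) (.a))) (.pow (.w) 5)) (.pow (.P) 3)) (.c 2)),
    .c 0⟩

/-- free value column 128 -/
def vf128 : VFz := ⟨⟨8, 0, 0, 0, 0⟩, [8210795726000, -45383969921056, 104331907184432, -128001734764736, 88834060006240, -33358107491264, 5270253017520, 216230770272, -119434527408],
    .c 0,
    .c 0,
    .c 0,
    .c 0⟩

/-- free value column 129 -/
def vf129 : VFz := ⟨⟨8, 0, 0, 0, 1⟩, [-16421591452000, 90767939842112, -208663814368864, 256003469529472, -177668120012480, 66716214982528, -10540506035040, -432461540544, 238869054816],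
    .c 0,
    .c 0,
    .c 0,
    .c 0⟩

/-- free value column 130 -/
def vf130 : VFz := ⟨⟨8, 0, 0, 0, 2⟩, [8210795726000, -45383969921056, 104331907184432, -128001734764736, 88834060006240, -33358107491264, 5270253017520, 216230770272, -119434527408],
    .c 0,
    .mul (.c (-1)) (.mul (.mul (.add (.mul (.sub (.c (-10)) (.mul (.c 2) (.a))) (.P)) (.mul (.mul (.mul (.c 16) (.a)) (.add (.c 10) (.a))) (.s))) (.P)) (.c 2)),
    .c 0,
    .mul (.c (-1)) (.mul (.mul (.mul (.mul (.c 2) (.a)) (.add (.c 10) (.a))) (.pow (.P) 2)) (.c 2))⟩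

/-- free value column 131 -/
def vf131 : VFz := ⟨⟨8, 0, 1, 0, 0⟩, [36672804008976, -226921799689632, 597071180306496, -865691235564320, 747016079237920, -384049577310176, 109417157780400, -13650638843712, 136030074048],
    .c 0,
    .c 0,
    .c 0,
    .c 0⟩

/-- free value column 132 -/
def vf132 : VFz := ⟨⟨8, 0, 1, 0, 1⟩, [-56924016565952, 363075659537152, -985478546244128, 1475379001599168, -1316364038463360, 701382939637824, -208293809525760, 27733739227968, -510929202912],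
    .c 0,
    .c 0,
    .c 0,
    .c 0⟩

/-- free value column 133 -/
def vf133 : VFz := ⟨⟨8, 0, 1, 0, 2⟩, [20251212556976, -136153859847520, 388407365937632, -609687766034848, 569347959225440, -317333362327648, 98876651745360, -14083100384256, 374899128864],
    .c 0,
    .mul (.c (-1)) (.mul (.mul (.add (.mul (.sub (.c (-10)) (.mul (.c 2) (.a))) (.P)) (.mul (.mul (.mul (.c 16) (.a)) (.add (.c 10) (.a))) (.s))) (.P)) (.mul (.c 2) (.t))),
    .c 0,
    .mul (.c (-1)) (.mul (.mul (.mul (.mul (.c 2) (.a)) (.add (.c 10) (.a))) (.pow (.P) 2)) (.mul (.c 2) (.t)))⟩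

/-- free value column 134 -/
def vf134 : VFz := ⟨⟨8, 0, 1, 1, 0⟩, [393386501686624, -2425873804812808, 5464207372596240, -5563852648628056, 2166060805847280, 376552249632832, -514345281480576, 103549623293304, 315181865160],
    .mul (.c (-1)) (.mul (.mul (.add (.mul (.sub (.c (-10)) (.mul (.c 2) (.a))) (.P)) (.mul (.mul (.mul (.c 16) (.a)) (.add (.c 10) (.a))) (.s))) (.P)) (.c (-2))),
    .c 0,
    .mul (.c (-1)) (.mul (.mul (.mul (.mul (.c 2) (.a)) (.add (.c 10) (.a))) (.pow (.P) 2)) (.c (-2))),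
    .c 0⟩

/-- free value column 135 -/
def vf135 : VFz := ⟨⟨8, 0, 1, 1, 1⟩, [-289909405123544, 1465683909081112, -2845890556284056, 2548115283049448, -847810945522320, -183590679500384, 182362150004120, -28584856575512, -374899128864],
    .mul (.c (-1)) (.mul (.mul (.add (.mul (.sub (.c (-10)) (.mul (.c 2) (.a))) (.P)) (.mul (.mul (.mul (.c 16) (.a)) (.add (.c 10) (.a))) (.s))) (.P)) (.mul (.c (-2)) (.d))),
    .c 0,
    .mul (.c (-1)) (.mul (.mul (.mul (.mul (.c 2) (.a)) (.add (.c 10) (.a))) (.pow (.P) 2)) (.mul (.c (-2)) (.d))),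
    .c 0⟩

/-- free value column 136 -/
def vf136 : VFz := ⟨⟨8, 0, 1, 1, 2⟩, [6187860850832, -43320941038112, 139916034512040, -241232913383160, 221867897623200, -97543382254416, 11444583595176, 2680860094440],
    .mul (.c (-1)) (.mul (.mul (.add (.mul (.sub (.c (-10)) (.mul (.c 2) (.a))) (.P)) (.mul (.mul (.mul (.c 16) (.a)) (.add (.c 10) (.a))) (.s))) (.P)) (.mul (.c (-2)) (.pow (.d) 2))),
    .mul (.c (-1)) (.mul (.mul (.add (.mul (.sub (.c (-10)) (.mul (.c 2) (.a))) (.P)) (.mul (.mul (.mul (.c 16) (.a)) (.add (.c 10) (.a))) (.s))) (.P)) (.mul (.c 2) (.pow (.t) 2))),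
    .mul (.c (-1)) (.mul (.mul (.mul (.mul (.c 2) (.a)) (.add (.c 10) (.a))) (.pow (.P) 2)) (.mul (.c (-2)) (.pow (.d) 2))),
    .mul (.c (-1)) (.mul (.mul (.mul (.mul (.c 2) (.a)) (.add (.c 10) (.a))) (.pow (.P) 2)) (.mul (.c 2) (.pow (.t) 2)))⟩

/-- free value column 137 -/
def vf137 : VFz := ⟨⟨8, 0, 2, 0, 0⟩, [-332297559145008, 2021540233120488, -4303228664512464, 3734009555027304, -494795032143760, -1239663846288224, 740258005179168, -126137873102664, 315181865160],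
    .mul (.c (-1)) (.mul (.mul (.add (.mul (.sub (.c (-10)) (.mul (.c 2) (.a))) (.P)) (.mul (.mul (.mul (.c 16) (.a)) (.add (.c 10) (.a))) (.s))) (.P)) (.c 2)),
    .c 0,
    .mul (.c (-1)) (.mul (.mul (.mul (.mul (.c 2) (.a)) (.add (.c 10) (.a))) (.pow (.P) 2)) (.c 2)),
    .c 0⟩

/-- free value column 138 -/
def vf138 : VFz := ⟨⟨8, 0, 2, 0, 1⟩, [224655536606264, -1020092425233624, 1509411686360632, -363808097447112, -1178356563421360, 1208430933173344, -425893787875544, 46027616966264, -374899128864],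
    .mul (.c (-1)) (.mul (.mul (.add (.mul (.sub (.c (-10)) (.mul (.c 2) (.a))) (.P)) (.mul (.mul (.mul (.c 16) (.a)) (.add (.c 10) (.a))) (.s))) (.P)) (.mul (.c 2) (.d))),
    .c 0,
    .mul (.c (-1)) (.mul (.mul (.mul (.mul (.c 2) (.a)) (.add (.c 10) (.a))) (.pow (.P) 2)) (.mul (.c 2) (.d))),
    .c 0⟩

/-- free value column 139 -/
def vf139 : VFz := ⟨⟨8, 0, 2, 0, 2⟩, [6187860850832, -43320941038112, 139916034512040, -241232913383160, 221867897623200, -97543382254416, 11444583595176, 2680860094440],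
    .mul (.c (-1)) (.mul (.mul (.add (.mul (.sub (.c (-10)) (.mul (.c 2) (.a))) (.P)) (.mul (.mul (.mul (.c 16) (.a)) (.add (.c 10) (.a))) (.s))) (.P)) (.mul (.c 2) (.pow (.d) 2))),
    .mul (.c (-1)) (.mul (.mul (.add (.mul (.sub (.c (-10)) (.mul (.c 2) (.a))) (.P)) (.mul (.mul (.mul (.c 16) (.a)) (.add (.c 10) (.a))) (.s))) (.P)) (.mul (.c 2) (.pow (.t) 2))),
    .mul (.c (-1)) (.mul (.mul (.mul (.mul (.c 2) (.a)) (.add (.c 10) (.a))) (.pow (.P) 2)) (.mul (.c 2) (.pow (.d) 2))),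
    .mul (.c (-1)) (.mul (.mul (.mul (.mul (.c 2) (.a)) (.add (.c 10) (.a))) (.pow (.P) 2)) (.mul (.c 2) (.pow (.t) 2)))⟩

/-- free value column 140 -/
def vf140 : VFz := ⟨⟨8, 0, 2, 1, 0⟩, [54729453991364, -170554976281016, 3021416530908, 576680969813044, -895622718570820, 599073760229580, -192033595686972, 24424515627264, 281174346648],
    .mul (.c (-1)) (.mul (.mul (.add (.mul (.sub (.c (-10)) (.mul (.c 2) (.a))) (.P)) (.mul (.mul (.mul (.c 16) (.a)) (.add (.c 10) (.a))) (.s))) (.P)) (.mul (.c (-2)) (.t))),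
    .c 0,
    .mul (.c (-1)) (.mul (.mul (.mul (.mul (.c 2) (.a)) (.add (.c 10) (.a))) (.pow (.P) 2)) (.mul (.c (-2)) (.t))),
    .c 0⟩

/-- free value column 141 -/
def vf141 : VFz := ⟨⟨8, 0, 2, 1, 1⟩, [13250515988408, -18509634378416, -202647313698012, 636197155378100, -589181535786200, -8916689886312, 272262938455320, -102455436072888],
    .mul (.c (-1)) (.mul (.mul (.add (.mul (.sub (.c (-10)) (.mul (.c 2) (.a))) (.P)) (.mul (.mul (.mul (.c 16) (.a)) (.add (.c 10) (.a))) (.s))) (.P)) (.mul (.mul (.c (-2)) (.t)) (.d))),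
    .c 0,
    .mul (.c (-1)) (.mul (.mul (.mul (.mul (.c 2) (.a)) (.add (.c 10) (.a))) (.pow (.P) 2)) (.mul (.mul (.c (-2)) (.t)) (.d))),
    .c 0⟩

/-- free value column 142 -/
def vf142 : VFz := ⟨⟨8, 0, 2, 2, 0⟩, [47471078528926, -473707167064536, 1707196445621130, -2882141025153370, 2155296258337470, -383076527451516, -172990432884328, 2010645070830],
    .mul (.c (-1)) (.mul (.mul (.add (.mul (.sub (.c (-10)) (.mul (.c 2) (.a))) (.P)) (.mul (.mul (.mul (.c 16) (.a)) (.add (.c 10) (.a))) (.s))) (.P)) (.add (.mul (.c 2) (.pow (.u) 2)) (.mul (.c (-4)) (.pow (.t) 2)))),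
    .c 0,
    .mul (.c (-1)) (.mul (.mul (.mul (.mul (.c 2) (.a)) (.add (.c 10) (.a))) (.pow (.P) 2)) (.add (.mul (.c 2) (.pow (.u) 2)) (.mul (.c (-4)) (.pow (.t) 2)))),
    .c 0⟩

/-- free value column 143 -/
def vf143 : VFz := ⟨⟨8, 0, 2, 2, 1⟩, [-57508874789742, 395755233087624, -1081589140650540, 1418681412041800, -745993235967000, -76001203296780, 146572880729220],
    .mul (.c (-1)) (.mul (.mul (.add (.mul (.sub (.c (-10)) (.mul (.c 2) (.a))) (.P)) (.mul (.mul (.mul (.c 16) (.a)) (.add (.c 10) (.a))) (.s))) (.P)) (.add (.mul (.mul (.c 2) (.pow (.u) 2)) (.d)) (.mul (.mul (.c (-4)) (.pow (.t) 2)) (.d)))),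
    .c 0,
    .mul (.c (-1)) (.mul (.mul (.mul (.mul (.c 2) (.a)) (.add (.c 10) (.a))) (.pow (.P) 2)) (.add (.mul (.mul (.c 2) (.pow (.u) 2)) (.d)) (.mul (.mul (.c (-4)) (.pow (.t) 2)) (.d)))),
    .c 0⟩

/-- free value column 144 -/
def vf144 : VFz := ⟨⟨8, 0, 3, 0, 0⟩, [-9726798031060, -138882647718952, 945050087454884, -2151300389380532, 2352442268289060, -1306580651574892, 336688581813036, -27784175633760, 93724782216],
    .mul (.c (-1)) (.mul (.mul (.add (.mul (.sub (.c (-10)) (.mul (.c 2) (.a))) (.P)) (.mul (.mul (.mul (.c 16) (.a)) (.add (.c 10) (.a))) (.s))) (.P)) (.mul (.c 6) (.t))),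
    .c 0,
    .mul (.c (-1)) (.mul (.mul (.mul (.mul (.c 2) (.a)) (.add (.c 10) (.a))) (.pow (.P) 2)) (.mul (.c 6) (.t))),
    .c 0⟩

/-- free value column 145 -/
def vf145 : VFz := ⟨⟨8, 0, 3, 0, 1⟩, [-38001959391736, 191793398530864, -357016824350148, 328734498154540, -298290054706600, 399090218903976, -318041272836024, 91731995695128],
    .mul (.c (-1)) (.mul (.mul (.add (.mul (.sub (.c (-10)) (.mul (.c 2) (.a))) (.P)) (.mul (.mul (.mul (.c 16) (.a)) (.add (.c 10) (.a))) (.s))) (.P)) (.mul (.mul (.c 6) (.t)) (.d))),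
    .c 0,
    .mul (.c (-1)) (.mul (.mul (.mul (.mul (.c 2) (.a)) (.add (.c 10) (.a))) (.pow (.P) 2)) (.mul (.mul (.c 6) (.t)) (.d))),
    .c 0⟩

/-- free value column 146 -/
def vf146 : VFz := ⟨⟨8, 0, 3, 1, 0⟩, [6187860850832, -43320941038112, 139916034512040, -241232913383160, 221867897623200, -97543382254416, 11444583595176, 2680860094440],
    .mul (.c (-1)) (.mul (.mul (.add (.mul (.sub (.c (-10)) (.mul (.c 2) (.a))) (.P)) (.mul (.mul (.mul (.c 16) (.a)) (.add (.c 10) (.a))) (.s))) (.P)) (.mul (.c (-2)) (.pow (.u) 2))),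
    .c 0,
    .mul (.c (-1)) (.mul (.mul (.mul (.mul (.c 2) (.a)) (.add (.c 10) (.a))) (.pow (.P) 2)) (.mul (.c (-2)) (.pow (.u) 2))),
    .c 0⟩

/-- free value column 147 -/
def vf147 : VFz := ⟨⟨8, 0, 4, 0, 0⟩, [-41283217678094, 430386226026424, -1567280411109090, 2640908111770210, -1933428360714270, 285533145197100, 184435016479504, 670215023610],
    .mul (.c (-1)) (.mul (.mul (.add (.mul (.sub (.c (-10)) (.mul (.c 2) (.a))) (.P)) (.mul (.mul (.mul (.c 16) (.a)) (.add (.c 10) (.a))) (.s))) (.P)) (.add (.mul (.c 2) (.pow (.u) 2)) (.mul (.c 12) (.pow (.t) 2)))),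
    .c 0,
    .mul (.c (-1)) (.mul (.mul (.mul (.mul (.c 2) (.a)) (.add (.c 10) (.a))) (.pow (.P) 2)) (.add (.mul (.c 2) (.pow (.u) 2)) (.mul (.c 12) (.pow (.t) 2)))),
    .c 0⟩

/-- free value column 148 -/
def vf148 : VFz := ⟨⟨8, 0, 4, 0, 1⟩, [57508874789742, -395755233087624, 1081589140650540, -1418681412041800, 745993235967000, 76001203296780, -146572880729220],
    .mul (.c (-1)) (.mul (.mul (.add (.mul (.sub (.c (-10)) (.mul (.c 2) (.a))) (.P)) (.mul (.mul (.mul (.c 16) (.a)) (.add (.c 10) (.a))) (.s))) (.P)) (.add (.mul (.mul (.c 2) (.pow (.u) 2)) (.d)) (.mul (.mul (.c 12) (.pow (.t) 2)) (.d)))),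
    .c 0,
    .mul (.c (-1)) (.mul (.mul (.mul (.mul (.c 2) (.a)) (.add (.c 10) (.a))) (.pow (.P) 2)) (.add (.mul (.mul (.c 2) (.pow (.u) 2)) (.d)) (.mul (.mul (.c 12) (.pow (.t) 2)) (.d)))),
    .c 0⟩

/-- free value column 149 -/
def vf149 : VFz := ⟨⟨8, 1, 0, 0, 0⟩, [-16421591452000, 90767939842112, -208663814368864, 256003469529472, -177668120012480, 66716214982528, -10540506035040, -432461540544, 238869054816],
    .c 0,
    .c 0,
    .c 0,
    .c 0⟩

/-- free value column 150 -/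
def vf150 : VFz := ⟨⟨8, 1, 0, 0, 1⟩, [16421591452000, -90767939842112, 208663814368864, -256003469529472, 177668120012480, -66716214982528, 10540506035040, 432461540544, -238869054816],
    .c 0,
    .c 0,
    .c 0,
    .c 0⟩

/-- free value column 151 -/
def vf151 : VFz := ⟨⟨8, 1, 1, 0, 0⟩, [-56924016565952, 363075659537152, -985478546244128, 1475379001599168, -1316364038463360, 701382939637824, -208293809525760, 27733739227968, -510929202912],
    .c 0,
    .c 0,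
    .c 0,
    .c 0⟩

/-- free value column 152 -/
def vf152 : VFz := ⟨⟨8, 1, 1, 0, 1⟩, [40502425113952, -272307719695040, 776814731875264, -1219375532069696, 1138695918450880, -634666724655296, 197753303490720, -28166200768512, 749798257728],
    .c 0,
    .c 0,
    .c 0,
    .c 0⟩

/-- free value column 153 -/
def vf153 : VFz := ⟨⟨8, 1, 1, 1, 0⟩, [-32626934258640, 222795741923744, -668239434961712, 1092153592801168, -1013083754471840, 512420126836480, -121765818935712, 8721380195376, -374899128864],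
    .mul (.c (-1)) (.mul (.mul (.mul (.add (.mul (.sub (.c (-10)) (.mul (.c 2) (.a))) (.P)) (.mul (.mul (.mul (.c 16) (.a)) (.add (.c 10) (.a))) (.s))) (.w)) (.P)) (.c (-2))),
    .c 0,
    .mul (.c (-1)) (.mul (.mul (.mul (.mul (.mul (.c 2) (.a)) (.add (.c 10) (.a))) (.w)) (.pow (.P) 2)) (.c (-2))),
    .c 0⟩

/-- free value column 154 -/
def vf154 : VFz := ⟨⟨8, 1, 1, 1, 1⟩, [12375721701664, -86641882076224, 279832069024080, -482465826766320, 443735795246400, -195086764508832, 22889167190352, 5361720188880],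
    .mul (.c (-1)) (.mul (.mul (.mul (.add (.mul (.sub (.c (-10)) (.mul (.c 2) (.a))) (.P)) (.mul (.mul (.mul (.c 16) (.a)) (.add (.c 10) (.a))) (.s))) (.w)) (.P)) (.mul (.c (-2)) (.d))),
    .c 0,
    .mul (.c (-1)) (.mul (.mul (.mul (.mul (.mul (.c 2) (.a)) (.add (.c 10) (.a))) (.w)) (.pow (.P) 2)) (.mul (.c (-2)) (.d))),
    .c 0⟩

/-- free value column 155 -/
def vf155 : VFz := ⟨⟨8, 1, 2, 0, 0⟩, [-32626934258640, 222795741923744, -668239434961712, 1092153592801168, -1013083754471840, 512420126836480, -121765818935712, 8721380195376, -374899128864],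
    .mul (.c (-1)) (.mul (.mul (.mul (.add (.mul (.sub (.c (-10)) (.mul (.c 2) (.a))) (.P)) (.mul (.mul (.mul (.c 16) (.a)) (.add (.c 10) (.a))) (.s))) (.w)) (.P)) (.c 2)),
    .c 0,
    .mul (.c (-1)) (.mul (.mul (.mul (.mul (.mul (.c 2) (.a)) (.add (.c 10) (.a))) (.w)) (.pow (.P) 2)) (.c 2)),
    .c 0⟩

/-- free value column 156 -/
def vf156 : VFz := ⟨⟨8, 1, 2, 0, 1⟩, [12375721701664, -86641882076224, 279832069024080, -482465826766320, 443735795246400, -195086764508832, 22889167190352, 5361720188880],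
    .mul (.c (-1)) (.mul (.mul (.mul (.add (.mul (.sub (.c (-10)) (.mul (.c 2) (.a))) (.P)) (.mul (.mul (.mul (.c 16) (.a)) (.add (.c 10) (.a))) (.s))) (.w)) (.P)) (.mul (.c 2) (.d))),
    .c 0,
    .mul (.c (-1)) (.mul (.mul (.mul (.mul (.mul (.c 2) (.a)) (.add (.c 10) (.a))) (.w)) (.pow (.P) 2)) (.mul (.c 2) (.d))),
    .c 0⟩

/-- free value column 157 -/
def vf157 : VFz := ⟨⟨8, 1, 2, 1, 0⟩, [-18563582552496, 129962823114336, -419748103536120, 723698740149480, -665603692869600, 292630146763248, -34333750785528, -8042580283320],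
    .mul (.c (-1)) (.mul (.mul (.mul (.add (.mul (.sub (.c (-10)) (.mul (.c 2) (.a))) (.P)) (.mul (.mul (.mul (.c 16) (.a)) (.add (.c 10) (.a))) (.s))) (.w)) (.P)) (.mul (.c (-2)) (.t))),
    .c 0,
    .mul (.c (-1)) (.mul (.mul (.mul (.mul (.mul (.c 2) (.a)) (.add (.c 10) (.a))) (.w)) (.pow (.P) 2)) (.mul (.c (-2)) (.t))),
    .c 0⟩

/-- free value column 158 -/
def vf158 : VFz := ⟨⟨8, 1, 2, 2, 0⟩, [0, -45628216672848, 450588866322960, -1738268567851560, 3446663198477550, -3417496469739816, 1317731060028270],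
    .mul (.c (-1)) (.mul (.mul (.mul (.add (.mul (.sub (.c (-10)) (.mul (.c 2) (.a))) (.P)) (.mul (.mul (.mul (.c 16) (.a)) (.add (.c 10) (.a))) (.s))) (.w)) (.P)) (.add (.mul (.c 2) (.pow (.u) 2)) (.mul (.c (-4)) (.pow (.t) 2)))),
    .c 0,
    .mul (.c (-1)) (.mul (.mul (.mul (.mul (.mul (.c 2) (.a)) (.add (.c 10) (.a))) (.w)) (.pow (.P) 2)) (.add (.mul (.c 2) (.pow (.u) 2)) (.mul (.c (-4)) (.pow (.t) 2)))),
    .c 0⟩

/-- free value column 159 -/
def vf159 : VFz := ⟨⟨8, 1, 2, 2, 1⟩, [0, 57795795466992, -348363805630590, 838855240793240, -1069640152905960, 756969136010040, -234899994550736],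
    .mul (.c (-1)) (.mul (.mul (.mul (.add (.mul (.sub (.c (-10)) (.mul (.c 2) (.a))) (.P)) (.mul (.mul (.mul (.c 16) (.a)) (.add (.c 10) (.a))) (.s))) (.w)) (.P)) (.add (.mul (.mul (.c 2) (.pow (.u) 2)) (.d)) (.mul (.mul (.c (-4)) (.pow (.t) 2)) (.d)))),
    .c 0,
    .mul (.c (-1)) (.mul (.mul (.mul (.mul (.mul (.c 2) (.a)) (.add (.c 10) (.a))) (.w)) (.pow (.P) 2)) (.add (.mul (.mul (.c 2) (.pow (.u) 2)) (.d)) (.mul (.mul (.c (-4)) (.pow (.t) 2)) (.d)))),
    .c 0⟩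

/-- free value column 160 -/
def vf160 : VFz := ⟨⟨8, 1, 3, 0, 0⟩, [-6187860850832, 43320941038112, -139916034512040, 241232913383160, -221867897623200, 97543382254416, -11444583595176, -2680860094440],
    .mul (.c (-1)) (.mul (.mul (.mul (.add (.mul (.sub (.c (-10)) (.mul (.c 2) (.a))) (.P)) (.mul (.mul (.mul (.c 16) (.a)) (.add (.c 10) (.a))) (.s))) (.w)) (.P)) (.mul (.c 6) (.t))),
    .c 0,
    .mul (.c (-1)) (.mul (.mul (.mul (.mul (.mul (.c 2) (.a)) (.add (.c 10) (.a))) (.w)) (.pow (.P) 2)) (.mul (.c 6) (.t))),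
    .c 0⟩

/-- free value column 161 -/
def vf161 : VFz := ⟨⟨8, 1, 4, 0, 0⟩, [0, 45628216672848, -450588866322960, 1738268567851560, -3446663198477550, 3417496469739816, -1317731060028270],
    .mul (.c (-1)) (.mul (.mul (.mul (.add (.mul (.sub (.c (-10)) (.mul (.c 2) (.a))) (.P)) (.mul (.mul (.mul (.c 16) (.a)) (.add (.c 10) (.a))) (.s))) (.w)) (.P)) (.add (.mul (.c 2) (.pow (.u) 2)) (.mul (.c 12) (.pow (.t) 2)))),
    .c 0,
    .mul (.c (-1)) (.mul (.mul (.mul (.mul (.mul (.c 2) (.a)) (.add (.c 10) (.a))) (.w)) (.pow (.P) 2)) (.add (.mul (.c 2) (.pow (.u) 2)) (.mul (.c 12) (.pow (.t) 2)))),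
    .c 0⟩

/-- free value column 162 -/
def vf162 : VFz := ⟨⟨8, 1, 4, 0, 1⟩, [0, -57795795466992, 348363805630590, -838855240793240, 1069640152905960, -756969136010040, 234899994550736],
    .mul (.c (-1)) (.mul (.mul (.mul (.add (.mul (.sub (.c (-10)) (.mul (.c 2) (.a))) (.P)) (.mul (.mul (.mul (.c 16) (.a)) (.add (.c 10) (.a))) (.s))) (.w)) (.P)) (.add (.mul (.mul (.c 2) (.pow (.u) 2)) (.d)) (.mul (.mul (.c 12) (.pow (.t) 2)) (.d)))),
    .c 0,
    .mul (.c (-1)) (.mul (.mul (.mul (.mul (.mul (.c 2) (.a)) (.add (.c 10) (.a))) (.w)) (.pow (.P) 2)) (.add (.mul (.mul (.c 2) (.pow (.u) 2)) (.d)) (.mul (.mul (.c 12) (.pow (.t) 2)) (.d)))),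
    .c 0⟩

/-- free value column 163 -/
def vf163 : VFz := ⟨⟨8, 2, 0, 0, 0⟩, [8210795726000, -45383969921056, 104331907184432, -128001734764736, 88834060006240, -33358107491264, 5270253017520, 216230770272, -119434527408],
    .c 0,
    .c 0,
    .c 0,
    .c 0⟩

/-- free value column 164 -/
def vf164 : VFz := ⟨⟨8, 2, 1, 0, 0⟩, [20251212556976, -136153859847520, 388407365937632, -609687766034848, 569347959225440, -317333362327648, 98876651745360, -14083100384256, 374899128864],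
    .c 0,
    .c 0,
    .c 0,
    .c 0⟩

/-- free value column 165 -/
def vf165 : VFz := ⟨⟨8, 2, 1, 1, 0⟩, [6187860850832, -43320941038112, 139916034512040, -241232913383160, 221867897623200, -97543382254416, 11444583595176, 2680860094440],
    .mul (.c (-1)) (.mul (.mul (.mul (.add (.mul (.sub (.c (-10)) (.mul (.c 2) (.a))) (.P)) (.mul (.mul (.mul (.c 16) (.a)) (.add (.c 10) (.a))) (.s))) (.pow (.w) 2)) (.P)) (.c (-2))),
    .c 0,
    .mul (.c (-1)) (.mul (.mul (.mul (.mul (.mul (.c 2) (.a)) (.add (.c 10) (.a))) (.pow (.w) 2)) (.pow (.P) 2)) (.c (-2))),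
    .c 0⟩

/-- free value column 166 -/
def vf166 : VFz := ⟨⟨8, 2, 2, 0, 0⟩, [6187860850832, -43320941038112, 139916034512040, -241232913383160, 221867897623200, -97543382254416, 11444583595176, 2680860094440],
    .mul (.c (-1)) (.mul (.mul (.mul (.add (.mul (.sub (.c (-10)) (.mul (.c 2) (.a))) (.P)) (.mul (.mul (.mul (.c 16) (.a)) (.add (.c 10) (.a))) (.s))) (.pow (.w) 2)) (.P)) (.c 2)),
    .c 0,
    .mul (.c (-1)) (.mul (.mul (.mul (.mul (.mul (.c 2) (.a)) (.add (.c 10) (.a))) (.pow (.w) 2)) (.pow (.P) 2)) (.c 2)),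
    .c 0⟩

/-- free value column 167 -/
def vf167 : VFz := ⟨⟨8, 2, 2, 2, 0⟩, [0, -832512998580, 89748505010340, -722962264353440, 1831026301339020, -1769345307393528, 536294592032310],
    .mul (.c (-1)) (.mul (.mul (.mul (.add (.mul (.sub (.c (-10)) (.mul (.c 2) (.a))) (.P)) (.mul (.mul (.mul (.c 16) (.a)) (.add (.c 10) (.a))) (.s))) (.pow (.w) 2)) (.P)) (.add (.mul (.c 2) (.pow (.u) 2)) (.mul (.c (-4)) (.pow (.t) 2)))),
    .c 0,
    .mul (.c (-1)) (.mul (.mul (.mul (.mul (.mul (.c 2) (.a)) (.add (.c 10) (.a))) (.pow (.w) 2)) (.pow (.P) 2)) (.add (.mul (.c 2) (.pow (.u) 2)) (.mul (.c (-4)) (.pow (.t) 2)))),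
    .c 0⟩

/-- free value column 168 -/
def vf168 : VFz := ⟨⟨8, 2, 2, 2, 1⟩, [0, 1643956949304, -76630896752310, 379635229689160, -702945977484060, 510663840169608, -94440206280256],
    .mul (.c (-1)) (.mul (.mul (.mul (.add (.mul (.sub (.c (-10)) (.mul (.c 2) (.a))) (.P)) (.mul (.mul (.mul (.c 16) (.a)) (.add (.c 10) (.a))) (.s))) (.pow (.w) 2)) (.P)) (.add (.mul (.mul (.c 2) (.pow (.u) 2)) (.d)) (.mul (.mul (.c (-4)) (.pow (.t) 2)) (.d)))),
    .c 0,
    .mul (.c (-1)) (.mul (.mul (.mul (.mul (.mul (.c 2) (.a)) (.add (.c 10) (.a))) (.pow (.w) 2)) (.pow (.P) 2)) (.add (.mul (.mul (.c 2) (.pow (.u) 2)) (.d)) (.mul (.mul (.c (-4)) (.pow (.t) 2)) (.d)))),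
    .c 0⟩

/-- free value column 169 -/
def vf169 : VFz := ⟨⟨8, 2, 4, 0, 0⟩, [0, 832512998580, -89748505010340, 722962264353440, -1831026301339020, 1769345307393528, -536294592032310],
    .mul (.c (-1)) (.mul (.mul (.mul (.add (.mul (.sub (.c (-10)) (.mul (.c 2) (.a))) (.P)) (.mul (.mul (.mul (.c 16) (.a)) (.add (.c 10) (.a))) (.s))) (.pow (.w) 2)) (.P)) (.add (.mul (.c 2) (.pow (.u) 2)) (.mul (.c 12) (.pow (.t) 2)))),
    .c 0,
    .mul (.c (-1)) (.mul (.mul (.mul (.mul (.mul (.c 2) (.a)) (.add (.c 10) (.a))) (.pow (.w) 2)) (.pow (.P) 2)) (.add (.mul (.c 2) (.pow (.u) 2)) (.mul (.c 12) (.pow (.t) 2)))),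
    .c 0⟩

/-- free value column 170 -/
def vf170 : VFz := ⟨⟨8, 2, 4, 0, 1⟩, [0, -1643956949304, 76630896752310, -379635229689160, 702945977484060, -510663840169608, 94440206280256],
    .mul (.c (-1)) (.mul (.mul (.mul (.add (.mul (.sub (.c (-10)) (.mul (.c 2) (.a))) (.P)) (.mul (.mul (.mul (.c 16) (.a)) (.add (.c 10) (.a))) (.s))) (.pow (.w) 2)) (.P)) (.add (.mul (.mul (.c 2) (.pow (.u) 2)) (.d)) (.mul (.mul (.c 12) (.pow (.t) 2)) (.d)))),
    .c 0,
    .mul (.c (-1)) (.mul (.mul (.mul (.mul (.mul (.c 2) (.a)) (.add (.c 10) (.a))) (.pow (.w) 2)) (.pow (.P) 2)) (.add (.mul (.mul (.c 2) (.pow (.u) 2)) (.d)) (.mul (.mul (.c 12) (.pow (.t) 2)) (.d)))),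
    .c 0⟩

/-- free value column 171 -/
def vf171 : VFz := ⟨⟨8, 3, 2, 2, 0⟩, [0, -204528603660, -35452963141830, 286858014660800, -924732224605890, 1168384249306260, -497843784539194],
    .mul (.c (-1)) (.mul (.mul (.mul (.add (.mul (.sub (.c (-10)) (.mul (.c 2) (.a))) (.P)) (.mul (.mul (.mul (.c 16) (.a)) (.add (.c 10) (.a))) (.s))) (.pow (.w) 3)) (.P)) (.add (.mul (.c 2) (.pow (.u) 2)) (.mul (.c (-4)) (.pow (.t) 2)))),
    .c 0,
    .mul (.c (-1)) (.mul (.mul (.mul (.mul (.mul (.c 2) (.a)) (.add (.c 10) (.a))) (.pow (.w) 3)) (.pow (.P) 2)) (.add (.mul (.c 2) (.pow (.u) 2)) (.mul (.c (-4)) (.pow (.t) 2)))),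
    .c 0⟩

/-- free value column 172 -/
def vf172 : VFz := ⟨⟨8, 3, 2, 2, 1⟩, [0, -29306566512, 17633764148850, -49073714153040, -9856961511060, 163867942757484, -131860381187038],
    .mul (.c (-1)) (.mul (.mul (.mul (.add (.mul (.sub (.c (-10)) (.mul (.c 2) (.a))) (.P)) (.mul (.mul (.mul (.c 16) (.a)) (.add (.c 10) (.a))) (.s))) (.pow (.w) 3)) (.P)) (.add (.mul (.mul (.c 2) (.pow (.u) 2)) (.d)) (.mul (.mul (.c (-4)) (.pow (.t) 2)) (.d)))),
    .c 0,
    .mul (.c (-1)) (.mul (.mul (.mul (.mul (.mul (.c 2) (.a)) (.add (.c 10) (.a))) (.pow (.w) 3)) (.pow (.P) 2)) (.add (.mul (.mul (.c 2) (.pow (.u) 2)) (.d)) (.mul (.mul (.c (-4)) (.pow (.t) 2)) (.d)))),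
    .c 0⟩

/-- free value column 173 -/
def vf173 : VFz := ⟨⟨8, 3, 4, 0, 0⟩, [0, 204528603660, 35452963141830, -286858014660800, 924732224605890, -1168384249306260, 497843784539194],
    .mul (.c (-1)) (.mul (.mul (.mul (.add (.mul (.sub (.c (-10)) (.mul (.c 2) (.a))) (.P)) (.mul (.mul (.mul (.c 16) (.a)) (.add (.c 10) (.a))) (.s))) (.pow (.w) 3)) (.P)) (.add (.mul (.c 2) (.pow (.u) 2)) (.mul (.c 12) (.pow (.t) 2)))),
    .c 0,
    .mul (.c (-1)) (.mul (.mul (.mul (.mul (.mul (.c 2) (.a)) (.add (.c 10) (.a))) (.pow (.w) 3)) (.pow (.P) 2)) (.add (.mul (.c 2) (.pow (.u) 2)) (.mul (.c 12) (.pow (.t) 2)))),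
    .c 0⟩

/-- free value column 174 -/
def vf174 : VFz := ⟨⟨8, 3, 4, 0, 1⟩, [0, 29306566512, -17633764148850, 49073714153040, 9856961511060, -163867942757484, 131860381187038],
    .mul (.c (-1)) (.mul (.mul (.mul (.add (.mul (.sub (.c (-10)) (.mul (.c 2) (.a))) (.P)) (.mul (.mul (.mul (.c 16) (.a)) (.add (.c 10) (.a))) (.s))) (.pow (.w) 3)) (.P)) (.add (.mul (.mul (.c 2) (.pow (.u) 2)) (.d)) (.mul (.mul (.c 12) (.pow (.t) 2)) (.d)))),
    .c 0,
    .mul (.c (-1)) (.mul (.mul (.mul (.mul (.mul (.c 2) (.a)) (.add (.c 10) (.a))) (.pow (.w) 3)) (.pow (.P) 2)) (.add (.mul (.mul (.c 2) (.pow (.u) 2)) (.d)) (.mul (.mul (.c 12) (.pow (.t) 2)) (.d)))),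
    .c 0⟩

/-- free value column 175 -/
def vf175 : VFz := ⟨⟨9, 0, 0, 0, 0⟩, [-1975564188240, 11263189445040, -27034331857440, 35170111655840, -26329212388800, 10769058569760, -1775945607520, -74090223840, -59939863920, 46724459120],
    .c 0,
    .c 0,
    .c 0,
    .c 0⟩

/-- free value column 176 -/
def vf176 : VFz := ⟨⟨9, 0, 0, 0, 1⟩, [3951128376480, -22526378890080, 54068663714880, -70340223311680, 52658424777600, -21538117139520, 3551891215040, 148180447680, 119879727840, -93448918240],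
    .c 0,
    .c 0,
    .c 0,
    .c 0⟩

/-- free value column 177 -/
def vf177 : VFz := ⟨⟨9, 0, 0, 0, 2⟩, [-1975564188240, 11263189445040, -27034331857440, 35170111655840, -26329212388800, 10769058569760, -1775945607520, -74090223840, -59939863920, 46724459120],
    .c 0,
    .mul (.c (-1)) (.mul (.add (.mul (.sub (.c (-10)) (.mul (.c 2) (.a))) (.P)) (.mul (.mul (.mul (.c 18) (.a)) (.add (.c 10) (.a))) (.s))) (.c 2)),
    .c 0,
    .mul (.c (-1)) (.mul (.mul (.mul (.mul (.c 2) (.a)) (.add (.c 10) (.a))) (.P)) (.c 2))⟩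

/-- free value column 178 -/
def vf178 : VFz := ⟨⟨9, 0, 1, 0, 0⟩, [-8524513176560, 55564987629840, -156557345677680, 247742272666640, -238364562178560, 139677881848512, -45984485652384, 6164777604000, 383686542144, -102699605952],
    .c 0,
    .c 0,
    .c 0,
    .c 0⟩

/-- free value column 179 -/
def vf179 : VFz := ⟨⟨9, 0, 1, 0, 1⟩, [13097897976640, -88603596369600, 259046027640480, -425144322021600, 424070699579520, -257817646557504, 88417080089728, -12477735655680, -887252812128, 298848130144],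
    .c 0,
    .c 0,
    .c 0,
    .c 0⟩

/-- free value column 180 -/
def vf180 : VFz := ⟨⟨9, 0, 1, 0, 2⟩, [-4573384800080, 33038608739760, -102488681962800, 177402049354960, -185706137400960, 118139764708992, -42432594437344, 6312958051680, 503566269984, -196148524192],
    .c 0,
    .mul (.c (-1)) (.mul (.add (.mul (.sub (.c (-10)) (.mul (.c 2) (.a))) (.P)) (.mul (.mul (.mul (.c 18) (.a)) (.add (.c 10) (.a))) (.s))) (.mul (.c 2) (.t))),
    .c 0,
    .mul (.c (-1)) (.mul (.mul (.mul (.mul (.c 2) (.a)) (.add (.c 10) (.a))) (.P)) (.mul (.c 2) (.t)))⟩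

/-- free value column 181 -/
def vf181 : VFz := ⟨⟨9, 0, 1, 1, 0⟩, [-70250911956840, 512239278976472, -1296969202699024, 1428627470966032, -491669590285960, -330424748379568, 320699925428936, -68609826686560, -3469609068856, -172786294632],
    .mul (.c (-1)) (.mul (.add (.mul (.sub (.c (-10)) (.mul (.c 2) (.a))) (.P)) (.mul (.mul (.mul (.c 18) (.a)) (.add (.c 10) (.a))) (.s))) (.c (-2))),
    .c 0,
    .mul (.c (-1)) (.mul (.mul (.mul (.mul (.c 2) (.a)) (.add (.c 10) (.a))) (.P)) (.c (-2))),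
    .c 0⟩

/-- free value column 182 -/
def vf182 : VFz := ⟨⟨9, 0, 1, 1, 1⟩, [66317139659152, -375008130369088, 792592086944600, -684971672104464, -32442879674840, 526528189541392, -406135814663408, 126480362091312, -13555429948848, 196148524192],
    .mul (.c (-1)) (.mul (.add (.mul (.sub (.c (-10)) (.mul (.c 2) (.a))) (.P)) (.mul (.mul (.mul (.c 18) (.a)) (.add (.c 10) (.a))) (.s))) (.mul (.c (-2)) (.d))),
    .c 0,
    .mul (.c (-1)) (.mul (.mul (.mul (.mul (.c 2) (.a)) (.add (.c 10) (.a))) (.P)) (.mul (.c (-2)) (.d))),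
    .c 0⟩

/-- free value column 183 -/
def vf183 : VFz := ⟨⟨9, 0, 1, 1, 2⟩, [-2251806974416, 16467733727792, -53157450403696, 89360830823600, -76966851181000, 26709063632000, 2647451392496, -2673820952032, -135150064744],
    .mul (.c (-1)) (.mul (.add (.mul (.sub (.c (-10)) (.mul (.c 2) (.a))) (.P)) (.mul (.mul (.mul (.c 18) (.a)) (.add (.c 10) (.a))) (.s))) (.mul (.c (-2)) (.pow (.d) 2))),
    .mul (.c (-1)) (.mul (.add (.mul (.sub (.c (-10)) (.mul (.c 2) (.a))) (.P)) (.mul (.mul (.mul (.c 18) (.a)) (.add (.c 10) (.a))) (.s))) (.mul (.c 2) (.pow (.t) 2))),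
    .mul (.c (-1)) (.mul (.mul (.mul (.mul (.c 2) (.a)) (.add (.c 10) (.a))) (.P)) (.mul (.c (-2)) (.pow (.d) 2))),
    .mul (.c (-1)) (.mul (.mul (.mul (.mul (.c 2) (.a)) (.add (.c 10) (.a))) (.P)) (.mul (.c 2) (.pow (.t) 2)))⟩

/-- free value column 184 -/
def vf184 : VFz := ⟨⟨9, 0, 2, 0, 0⟩, [54624964219608, -401963404596328, 958642606108592, -859931598953072, -60005599266760, 630891463631312, -402046157126152, 75814010662016, 4146501615416, -172786294632],
    .mul (.c (-1)) (.mul (.add (.mul (.sub (.c (-10)) (.mul (.c 2) (.a))) (.P)) (.mul (.mul (.mul (.c 18) (.a)) (.add (.c 10) (.a))) (.s))) (.c 2)),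
    .c 0,
    .mul (.c (-1)) (.mul (.mul (.mul (.mul (.c 2) (.a)) (.add (.c 10) (.a))) (.P)) (.c 2)),
    .c 0⟩

/-- free value column 185 -/
def vf185 : VFz := ⟨⟨9, 0, 2, 0, 1⟩, [-48163142161328, 243059977978400, -374984921404216, -27275749899856, 711722559200760, -869643973487376, 480411197968112, -128410994386544, 13088897667856, 196148524192],
    .mul (.c (-1)) (.mul (.add (.mul (.sub (.c (-10)) (.mul (.c 2) (.a))) (.P)) (.mul (.mul (.mul (.c 18) (.a)) (.add (.c 10) (.a))) (.s))) (.mul (.c 2) (.d))),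
    .c 0,
    .mul (.c (-1)) (.mul (.mul (.mul (.mul (.c 2) (.a)) (.add (.c 10) (.a))) (.P)) (.mul (.c 2) (.d))),
    .c 0⟩

/-- free value column 186 -/
def vf186 : VFz := ⟨⟨9, 0, 2, 0, 2⟩, [-2251806974416, 16467733727792, -53157450403696, 89360830823600, -76966851181000, 26709063632000, 2647451392496, -2673820952032, -135150064744],
    .mul (.c (-1)) (.mul (.add (.mul (.sub (.c (-10)) (.mul (.c 2) (.a))) (.P)) (.mul (.mul (.mul (.c 18) (.a)) (.add (.c 10) (.a))) (.s))) (.mul (.c 2) (.pow (.d) 2))),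
    .mul (.c (-1)) (.mul (.add (.mul (.sub (.c (-10)) (.mul (.c 2) (.a))) (.P)) (.mul (.mul (.mul (.c 18) (.a)) (.add (.c 10) (.a))) (.s))) (.mul (.c 2) (.pow (.t) 2))),
    .mul (.c (-1)) (.mul (.mul (.mul (.mul (.c 2) (.a)) (.add (.c 10) (.a))) (.P)) (.mul (.c 2) (.pow (.d) 2))),
    .mul (.c (-1)) (.mul (.mul (.mul (.mul (.c 2) (.a)) (.add (.c 10) (.a))) (.P)) (.mul (.c 2) (.pow (.t) 2)))⟩

/-- free value column 187 -/
def vf187 : VFz := ⟨⟨9, 0, 2, 1, 0⟩, [-14533794468688, 76041828868868, -114528818198692, -46126838091428, 315179491694620, -347222283959096, 140060278594560, 2465869833264, -11188622880264, -147111393144],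
    .mul (.c (-1)) (.mul (.add (.mul (.sub (.c (-10)) (.mul (.c 2) (.a))) (.P)) (.mul (.mul (.mul (.c 18) (.a)) (.add (.c 10) (.a))) (.s))) (.mul (.c (-2)) (.t))),
    .c 0,
    .mul (.c (-1)) (.mul (.mul (.mul (.mul (.c 2) (.a)) (.add (.c 10) (.a))) (.P)) (.mul (.c (-2)) (.t))),
    .c 0⟩

/-- free value column 188 -/
def vf188 : VFz := ⟨⟨9, 0, 2, 1, 1⟩, [-463878031848, -17172403159344, 95431962035892, -133954821172600, -82846219612180, 354043489881944, -285163689508716, 60681967838160, 9443591728692],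
    .mul (.c (-1)) (.mul (.add (.mul (.sub (.c (-10)) (.mul (.c 2) (.a))) (.P)) (.mul (.mul (.mul (.c 18) (.a)) (.add (.c 10) (.a))) (.s))) (.mul (.mul (.c (-2)) (.t)) (.d))),
    .c 0,
    .mul (.c (-1)) (.mul (.mul (.mul (.mul (.c 2) (.a)) (.add (.c 10) (.a))) (.P)) (.mul (.mul (.c (-2)) (.t)) (.d))),
    .c 0⟩

/-- free value column 189 -/
def vf189 : VFz := ⟨⟨9, 0, 2, 2, 0⟩, [-44519038121614, 501085904215414, -2161685804660250, 4809756881219850, -6090440256204360, 4513121194384770, -1879090889871524, 351873371586272, -101362548558],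
    .mul (.c (-1)) (.mul (.add (.mul (.sub (.c (-10)) (.mul (.c 2) (.a))) (.P)) (.mul (.mul (.mul (.c 18) (.a)) (.add (.c 10) (.a))) (.s))) (.add (.mul (.c 2) (.pow (.u) 2)) (.mul (.c (-4)) (.pow (.t) 2)))),
    .c 0,
    .mul (.c (-1)) (.mul (.mul (.mul (.mul (.c 2) (.a)) (.add (.c 10) (.a))) (.P)) (.add (.mul (.c 2) (.pow (.u) 2)) (.mul (.c (-4)) (.pow (.t) 2)))),
    .c 0⟩

/-- free value column 190 -/
def vf190 : VFz := ⟨⟨9, 0, 2, 2, 1⟩, [57508874789742, -454002085736298, 1490421568966746, -2600189762867750, 2528818926675260, -1274459293089480, 232337008461506, 19564762800274],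
    .mul (.c (-1)) (.mul (.add (.mul (.sub (.c (-10)) (.mul (.c 2) (.a))) (.P)) (.mul (.mul (.mul (.c 18) (.a)) (.add (.c 10) (.a))) (.s))) (.add (.mul (.mul (.c 2) (.pow (.u) 2)) (.d)) (.mul (.mul (.c (-4)) (.pow (.t) 2)) (.d)))),
    .c 0,
    .mul (.c (-1)) (.mul (.mul (.mul (.mul (.c 2) (.a)) (.add (.c 10) (.a))) (.P)) (.add (.mul (.mul (.c 2) (.pow (.u) 2)) (.d)) (.mul (.mul (.c (-4)) (.pow (.t) 2)) (.d)))),
    .c 0⟩

/-- free value column 191 -/
def vf191 : VFz := ⟨⟨9, 0, 3, 0, 0⟩, [953181770944, 22867714782060, -200589665378892, 580972210740788, -808753033819580, 572198303196088, -171903067461920, -6848195589712, 11151588891272, -49037131048],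
    .mul (.c (-1)) (.mul (.add (.mul (.sub (.c (-10)) (.mul (.c 2) (.a))) (.P)) (.mul (.mul (.mul (.c 18) (.a)) (.add (.c 10) (.a))) (.s))) (.mul (.c 6) (.t))),
    .c 0,
    .mul (.c (-1)) (.mul (.mul (.mul (.mul (.c 2) (.a)) (.add (.c 10) (.a))) (.P)) (.mul (.c 6) (.t))),
    .c 0⟩

/-- free value column 192 -/
def vf192 : VFz := ⟨⟨9, 0, 3, 0, 1⟩, [9471105929512, -48698531751824, 117197839578892, -223488502121800, 390713624336180, -460879744409944, 274573883938732, -49986684030032, -8902991469716],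
    .mul (.c (-1)) (.mul (.add (.mul (.sub (.c (-10)) (.mul (.c 2) (.a))) (.P)) (.mul (.mul (.mul (.c 18) (.a)) (.add (.c 10) (.a))) (.s))) (.mul (.mul (.c 6) (.t)) (.d))),
    .c 0,
    .mul (.c (-1)) (.mul (.mul (.mul (.mul (.c 2) (.a)) (.add (.c 10) (.a))) (.P)) (.mul (.mul (.c 6) (.t)) (.d))),
    .c 0⟩

/-- free value column 193 -/
def vf193 : VFz := ⟨⟨9, 0, 3, 1, 0⟩, [-2251806974416, 16467733727792, -53157450403696, 89360830823600, -76966851181000, 26709063632000, 2647451392496, -2673820952032, -135150064744],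
    .mul (.c (-1)) (.mul (.add (.mul (.sub (.c (-10)) (.mul (.c 2) (.a))) (.P)) (.mul (.mul (.mul (.c 18) (.a)) (.add (.c 10) (.a))) (.s))) (.mul (.c (-2)) (.pow (.u) 2))),
    .c 0,
    .mul (.c (-1)) (.mul (.mul (.mul (.mul (.c 2) (.a)) (.add (.c 10) (.a))) (.P)) (.mul (.c (-2)) (.pow (.u) 2))),
    .c 0⟩

/-- free value column 194 -/
def vf194 : VFz := ⟨⟨9, 0, 4, 0, 0⟩, [42267231147198, -484618170487622, 2108528354256554, -4720396050396250, 6013473405023360, -4486412130752770, 1881738341264020, -354547192538304, -33787516186],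
    .mul (.c (-1)) (.mul (.add (.mul (.sub (.c (-10)) (.mul (.c 2) (.a))) (.P)) (.mul (.mul (.mul (.c 18) (.a)) (.add (.c 10) (.a))) (.s))) (.add (.mul (.c 2) (.pow (.u) 2)) (.mul (.c 12) (.pow (.t) 2)))),
    .c 0,
    .mul (.c (-1)) (.mul (.mul (.mul (.mul (.c 2) (.a)) (.add (.c 10) (.a))) (.P)) (.add (.mul (.c 2) (.pow (.u) 2)) (.mul (.c 12) (.pow (.t) 2)))),
    .c 0⟩

/-- free value column 195 -/
def vf195 : VFz := ⟨⟨9, 0, 4, 0, 1⟩, [-57508874789742, 454002085736298, -1490421568966746, 2600189762867750, -2528818926675260, 1274459293089480, -232337008461506, -19564762800274],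
    .mul (.c (-1)) (.mul (.add (.mul (.sub (.c (-10)) (.mul (.c 2) (.a))) (.P)) (.mul (.mul (.mul (.c 18) (.a)) (.add (.c 10) (.a))) (.s))) (.add (.mul (.mul (.c 2) (.pow (.u) 2)) (.d)) (.mul (.mul (.c 12) (.pow (.t) 2)) (.d)))),
    .c 0,
    .mul (.c (-1)) (.mul (.mul (.mul (.mul (.c 2) (.a)) (.add (.c 10) (.a))) (.P)) (.add (.mul (.mul (.c 2) (.pow (.u) 2)) (.d)) (.mul (.mul (.c 12) (.pow (.t) 2)) (.d)))),
    .c 0⟩

/-- free value column 196 -/
def vf196 : VFz := ⟨⟨9, 1, 0, 0, 0⟩, [3951128376480, -22526378890080, 54068663714880, -70340223311680, 52658424777600, -21538117139520, 3551891215040, 148180447680, 119879727840, -93448918240],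
    .c 0,
    .c 0,
    .c 0,
    .c 0⟩

/-- free value column 197 -/
def vf197 : VFz := ⟨⟨9, 1, 0, 0, 1⟩, [-3951128376480, 22526378890080, -54068663714880, 70340223311680, -52658424777600, 21538117139520, -3551891215040, -148180447680, -119879727840, 93448918240],
    .c 0,
    .c 0,
    .c 0,
    .c 0⟩

/-- free value column 198 -/
def vf198 : VFz := ⟨⟨9, 1, 1, 0, 0⟩, [13097897976640, -88603596369600, 259046027640480, -425144322021600, 424070699579520, -257817646557504, 88417080089728, -12477735655680, -887252812128, 298848130144],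
    .c 0,
    .c 0,
    .c 0,
    .c 0⟩

/-- free value column 199 -/
def vf199 : VFz := ⟨⟨9, 1, 1, 0, 1⟩, [-9146769600160, 66077217479520, -204977363925600, 354804098709920, -371412274801920, 236279529417984, -84865188874688, 12625916103360, 1007132539968, -392297048384],
    .c 0,
    .c 0,
    .c 0,
    .c 0⟩

/-- free value column 200 -/
def vf200 : VFz := ⟨⟨9, 1, 1, 1, 0⟩, [9076998748912, -65974076195344, 208803582770192, -356123711002160, 339639839762960, -171557891972992, 37137691652352, -965316147616, -233266140496, 196148524192],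
    .mul (.c (-1)) (.mul (.mul (.add (.mul (.sub (.c (-10)) (.mul (.c 2) (.a))) (.P)) (.mul (.mul (.mul (.c 18) (.a)) (.add (.c 10) (.a))) (.s))) (.w)) (.c (-2))),
    .c 0,
    .mul (.c (-1)) (.mul (.mul (.mul (.mul (.mul (.c 2) (.a)) (.add (.c 10) (.a))) (.w)) (.P)) (.c (-2))),
    .c 0⟩

/-- free value column 201 -/
def vf201 : VFz := ⟨⟨9, 1, 1, 1, 1⟩, [-4503613948832, 32935467455584, -106314900807392, 178721661647200, -153933702362000, 53418127264000, 5294902784992, -5347641904064, -270300129488],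
    .mul (.c (-1)) (.mul (.mul (.add (.mul (.sub (.c (-10)) (.mul (.c 2) (.a))) (.P)) (.mul (.mul (.mul (.c 18) (.a)) (.add (.c 10) (.a))) (.s))) (.w)) (.mul (.c (-2)) (.d))),
    .c 0,
    .mul (.c (-1)) (.mul (.mul (.mul (.mul (.mul (.c 2) (.a)) (.add (.c 10) (.a))) (.w)) (.P)) (.mul (.c (-2)) (.d))),
    .c 0⟩

/-- free value column 202 -/
def vf202 : VFz := ⟨⟨9, 1, 2, 0, 0⟩, [9076998748912, -65974076195344, 208803582770192, -356123711002160, 339639839762960, -171557891972992, 37137691652352, -965316147616, -233266140496, 196148524192],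
    .mul (.c (-1)) (.mul (.mul (.add (.mul (.sub (.c (-10)) (.mul (.c 2) (.a))) (.P)) (.mul (.mul (.mul (.c 18) (.a)) (.add (.c 10) (.a))) (.s))) (.w)) (.c 2)),
    .c 0,
    .mul (.c (-1)) (.mul (.mul (.mul (.mul (.mul (.c 2) (.a)) (.add (.c 10) (.a))) (.w)) (.P)) (.c 2)),
    .c 0⟩

/-- free value column 203 -/
def vf203 : VFz := ⟨⟨9, 1, 2, 0, 1⟩, [-4503613948832, 32935467455584, -106314900807392, 178721661647200, -153933702362000, 53418127264000, 5294902784992, -5347641904064, -270300129488],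
    .mul (.c (-1)) (.mul (.mul (.add (.mul (.sub (.c (-10)) (.mul (.c 2) (.a))) (.P)) (.mul (.mul (.mul (.c 18) (.a)) (.add (.c 10) (.a))) (.s))) (.w)) (.mul (.c 2) (.d))),
    .c 0,
    .mul (.c (-1)) (.mul (.mul (.mul (.mul (.mul (.c 2) (.a)) (.add (.c 10) (.a))) (.w)) (.P)) (.mul (.c 2) (.d))),
    .c 0⟩

/-- free value column 204 -/
def vf204 : VFz := ⟨⟨9, 1, 2, 1, 0⟩, [6755420923248, -49403201183376, 159472351211088, -268082492470800, 230900553543000, -80127190896000, -7942354177488, 8021462856096, 405450194232],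
    .mul (.c (-1)) (.mul (.mul (.add (.mul (.sub (.c (-10)) (.mul (.c 2) (.a))) (.P)) (.mul (.mul (.mul (.c 18) (.a)) (.add (.c 10) (.a))) (.s))) (.w)) (.mul (.c (-2)) (.t))),
    .c 0,
    .mul (.c (-1)) (.mul (.mul (.mul (.mul (.mul (.c 2) (.a)) (.add (.c 10) (.a))) (.w)) (.P)) (.mul (.c (-2)) (.t))),
    .c 0⟩

/-- free value column 205 -/
def vf205 : VFz := ⟨⟨9, 1, 3, 0, 0⟩, [2251806974416, -16467733727792, 53157450403696, -89360830823600, 76966851181000, -26709063632000, -2647451392496, 2673820952032, 135150064744],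
    .mul (.c (-1)) (.mul (.mul (.add (.mul (.sub (.c (-10)) (.mul (.c 2) (.a))) (.P)) (.mul (.mul (.mul (.c 18) (.a)) (.add (.c 10) (.a))) (.s))) (.w)) (.mul (.c 6) (.t))),
    .c 0,
    .mul (.c (-1)) (.mul (.mul (.mul (.mul (.mul (.c 2) (.a)) (.add (.c 10) (.a))) (.w)) (.P)) (.mul (.c 6) (.t))),
    .c 0⟩

/-- free value column 206 -/
def vf206 : VFz := ⟨⟨9, 2, 0, 0, 0⟩, [-1975564188240, 11263189445040, -27034331857440, 35170111655840, -26329212388800, 10769058569760, -1775945607520, -74090223840, -59939863920, 46724459120],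
    .c 0,
    .c 0,
    .c 0,
    .c 0⟩

/-- free value column 207 -/
def vf207 : VFz := ⟨⟨9, 2, 1, 0, 0⟩, [-4573384800080, 33038608739760, -102488681962800, 177402049354960, -185706137400960, 118139764708992, -42432594437344, 6312958051680, 503566269984, -196148524192],
    .c 0,
    .c 0,
    .c 0,
    .c 0⟩

/-- free value column 208 -/
def vf208 : VFz := ⟨⟨9, 2, 1, 1, 0⟩, [-2251806974416, 16467733727792, -53157450403696, 89360830823600, -76966851181000, 26709063632000, 2647451392496, -2673820952032, -135150064744],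
    .mul (.c (-1)) (.mul (.mul (.add (.mul (.sub (.c (-10)) (.mul (.c 2) (.a))) (.P)) (.mul (.mul (.mul (.c 18) (.a)) (.add (.c 10) (.a))) (.s))) (.pow (.w) 2)) (.c (-2))),
    .c 0,
    .mul (.c (-1)) (.mul (.mul (.mul (.mul (.mul (.c 2) (.a)) (.add (.c 10) (.a))) (.pow (.w) 2)) (.P)) (.c (-2))),
    .c 0⟩

/-- free value column 209 -/
def vf209 : VFz := ⟨⟨9, 2, 2, 0, 0⟩, [-2251806974416, 16467733727792, -53157450403696, 89360830823600, -76966851181000, 26709063632000, 2647451392496, -2673820952032, -135150064744],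
    .mul (.c (-1)) (.mul (.mul (.add (.mul (.sub (.c (-10)) (.mul (.c 2) (.a))) (.P)) (.mul (.mul (.mul (.c 18) (.a)) (.add (.c 10) (.a))) (.s))) (.pow (.w) 2)) (.c 2)),
    .c 0,
    .mul (.c (-1)) (.mul (.mul (.mul (.mul (.mul (.c 2) (.a)) (.add (.c 10) (.a))) (.pow (.w) 2)) (.P)) (.c 2)),
    .c 0⟩

/-- free row column 0 -/
def rf0 : RFz := ⟨⟨0, 6, 0, [(0, 1)]⟩, [-9859365247680, 49095166014720, -55801494666720, -112403086668450, 347075296696710, -271583929994130, -136201263933960, 457846087105530, -465739850046240, 276036109668720, -66085006965480, -41496396867360, 38276332864110, -9150996637980],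
    .mul (.pow (.P) 3) (.mul (.c (-360)) (.T)),
    .c 0⟩

/-- free row column 1 -/
def rf1 : RFz := ⟨⟨0, 6, 1, [(0, 1)]⟩, [-1259553396420, 20402921401260, -58243256782050, -10778023728630, 363268292970150, -953461516098360, 1433037177147270, -1332068592534000, 546049562503440, 291661714900740, -504545209129560, 246786758667570, -37241676743460, -3609721229760],
    .mul (.pow (.P) 3) (.mul (.mul (.c 360) (.T)) (.t)),
    .c 0⟩

/-- free row column 2 -/
def rf2 : RFz := ⟨⟨0, 7, 0, [(0, 1)]⟩, [12575686442400, -60482265107040, 58403607909120, 187094943436320, -559361194005600, 581068666264320, -146598810566400, -325874223505440, 534349887445440, -468783247183200, 251143003340640, -74340862843680, 18297317682720, -11102230539360, 3609721229760],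
    .mul (.pow (.P) 2) (.mul (.c (-420)) (.T)),
    .c 0⟩

/-- free row column 3 -/
def rf3 : RFz := ⟨⟨0, 7, 1, [(0, 1)]⟩, [0, 29348267981760, -154085724573120, 209027655279360, 224368862310720, -824859251657280, 528477868195200, 465523210275840, -783322932248640, 327618980225280, -56576559107520, 108360179760960, -102498627931200, 29819397090240, -1201325601600],
    .mul (.pow (.P) 2) (.mul (.mul (.c 420) (.T)) (.t)),
    .c 0⟩

/-- free row column 4 -/
def rf4 : RFz := ⟨⟨0, 7, 2, [(0, 1)]⟩, [0, 0, 280411034692320, -2917242531981270, 11782158271999650, -29623689086172390, 55877352314420520, -77121846825502050, 65738649366067680, -18066139714298160, -26594544130515000, 35567006520598560, -19902493432900710, 5623561399541580, -646140100127040],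
    .mul (.pow (.P) 2) (.add (.add (.add (.add (.add (.add (.mul (.mul (.c 4) (.P)) (.v)) (.mul (.mul (.c 4) (.P)) (.t))) (.mul (.mul (.c (-22)) (.P)) (.s))) (.mul (.mul (.c (-420)) (.T)) (.pow (.u) 2))) (.mul (.mul (.c 840) (.T)) (.pow (.t) 2))) (.mul (.mul (.c 14) (.T)) (.w))) (.mul (.mul (.mul (.c 14) (.T)) (.w)) (.s))),
    .c 0⟩

/-- free row column 5 -/
def rf5 : RFz := ⟨⟨0, 7, 3, [(0, 1)]⟩, [0, 0, 44656893145800, -411281756947800, 892388560782600, 616998702132000, -6586983294777000, 15235618320028800, -19774850238532800, 16354659093962400, -8962412616259200, 3146256838945800, -512681489110800, -84434678294400, 43247721657600],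
    .mul (.pow (.P) 2) (.add (.add (.add (.add (.add (.add (.mul (.mul (.mul (.c 6) (.P)) (.t)) (.v)) (.mul (.mul (.c 6) (.P)) (.pow (.t) 2))) (.mul (.mul (.mul (.c (-78)) (.P)) (.s)) (.t))) (.mul (.mul (.mul (.c (-420)) (.T)) (.t)) (.pow (.u) 2))) (.mul (.mul (.c 840) (.T)) (.pow (.t) 3))) (.mul (.mul (.mul (.c 42) (.T)) (.w)) (.t))) (.mul (.mul (.mul (.mul (.c 42) (.T)) (.w)) (.s)) (.t))),
    .c 0⟩

/-- free row column 6 -/
def rf6 : RFz := ⟨⟨0, 8, 0, [(0, 1)]⟩, [-2716321194720, 11387099092320, -2602113242400, -74405594632320, 210344473452960, -305383850745120, 278595396263520, -124319837769120, -93230243447040, 247111090994880, -265226924501280, 197884504480320, -114397908811200, 46885660657920, -10766358519840, 840927921120],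
    .mul (.P) (.mul (.c (-480)) (.T)),
    .c 0⟩

/-- free row column 7 -/
def rf7 : RFz := ⟨⟨0, 8, 1, [(0, 1)]⟩, [0, -10865284778880, 45548396369280, 456831809280, -343170774898560, 840921062002560, -878364628081920, 273460523051520, 381085277005440, -646381496839680, 607359086974080, -414526201165440, 184178930947200, -43065434079360, 3363711684480],
    .mul (.P) (.mul (.mul (.c 480) (.T)) (.t)),
    .c 0⟩

/-- free row column 8 -/
def rf8 : RFz := ⟨⟨0, 8, 2, [(0, 1)]⟩, [0, 0, -932328121425120, 5538790343409120, -10999534483486080, 7438198123006560, -3786468760136160, 21443331092339520, -39753757830366720, 19783678430748960, 18997367361194880, -31041839517403680, 17524557827814240, -4932842166655200, 846145961206560, -125298260246880],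
    .mul (.P) (.add (.add (.add (.add (.add (.add (.mul (.mul (.c 4) (.P)) (.v)) (.mul (.mul (.c 4) (.P)) (.t))) (.mul (.mul (.c (-22)) (.P)) (.s))) (.mul (.mul (.c (-480)) (.T)) (.pow (.u) 2))) (.mul (.mul (.c 960) (.T)) (.pow (.t) 2))) (.mul (.mul (.c 16) (.T)) (.w))) (.mul (.mul (.mul (.c 16) (.T)) (.w)) (.s))),
    .c 0⟩

/-- free row column 9 -/
def rf9 : RFz := ⟨⟨0, 8, 3, [(0, 1)]⟩, [0, 0, 0, 162979271683200, -683225945539200, 156126794544000, 4464335677939200, -12457689135494400, 17639805099168000, -16559596981267200, 11923525944086400, -6863874528672000, 2813139639475200, -645981511190400, 50455675267200],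
    .mul (.P) (.add (.add (.add (.add (.add (.add (.mul (.mul (.mul (.c 6) (.P)) (.t)) (.v)) (.mul (.mul (.c 6) (.P)) (.pow (.t) 2))) (.mul (.mul (.mul (.c (-78)) (.P)) (.s)) (.t))) (.mul (.mul (.mul (.c (-480)) (.T)) (.t)) (.pow (.u) 2))) (.mul (.mul (.c 960) (.T)) (.pow (.t) 3))) (.mul (.mul (.mul (.c 48) (.T)) (.w)) (.t))) (.mul (.mul (.mul (.mul (.c 48) (.T)) (.w)) (.s)) (.t))),
    .c 0⟩

/-- free row column 10 -/
def rf10 : RFz := ⟨⟨0, 8, 4, [(0, 1)]⟩, [0, 0, 0, 1202300969310000, -14673151062234000, 44552757026862000, -23904720376488000, -146434918627494000, 394902700018848000, -477263599349040000, 325674381120984000, -132342609732480000, 31693096436526000, -669364960572000, -4218616170720000, 1513670258016000],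
    .mul (.P) (.add (.add (.add (.add (.add (.add (.add (.add (.add (.add (.mul (.mul (.mul (.c 8) (.P)) (.pow (.u) 2)) (.v)) (.mul (.mul (.mul (.c 8) (.P)) (.t)) (.pow (.u) 2))) (.mul (.mul (.mul (.c (-22)) (.P)) (.s)) (.pow (.u) 2))) (.mul (.mul (.mul (.c (-180)) (.P)) (.s)) (.pow (.t) 2))) (.mul (.mul (.c (-480)) (.T)) (.pow (.u) 4))) (.mul (.mul (.mul (.c 480) (.T)) (.pow (.t) 2)) (.pow (.u) 2))) (.mul (.mul (.c 480) (.T)) (.pow (.t) 4))) (.mul (.mul (.mul (.c 16) (.T)) (.w)) (.pow (.u) 2))) (.mul (.mul (.mul (.c 96) (.T)) (.w)) (.pow (.t) 2))) (.mul (.mul (.mul (.mul (.c 16) (.T)) (.w)) (.s)) (.pow (.u) 2))) (.mul (.mul (.mul (.mul (.c 96) (.T)) (.w)) (.s)) (.pow (.t) 2))),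
    .c 0⟩

/-- free row column 11 -/
def rf11 : RFz := ⟨⟨0, 9, 2, [(0, 1)]⟩, [0, 0, 651917086732800, -2732903782156800, -27409908556800, 20590246493913600, -50455263720153600, 52701877684915200, -16407631383091200, -22865116620326400, 38782889810380800, -36441545218444800, 24871572069926400, -11050735856832000, 2583926044761600, -201822701068800],
    .add (.add (.add (.add (.add (.add (.mul (.mul (.c 4) (.P)) (.v)) (.mul (.mul (.c 4) (.P)) (.t))) (.mul (.mul (.c (-22)) (.P)) (.s))) (.mul (.mul (.c (-540)) (.T)) (.pow (.u) 2))) (.mul (.mul (.c 1080) (.T)) (.pow (.t) 2))) (.mul (.mul (.c 18) (.T)) (.w))) (.mul (.mul (.mul (.c 18) (.T)) (.w)) (.s)),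
    .c 0⟩

/-- free row column 12 -/
def rf12 : RFz := ⟨⟨0, 9, 4, [(0, 1)]⟩, [0, 0, 0, 0, 6519170867328000, -27329037821568000, 6245071781760000, 178573427117568000, -498307565419776000, 705592203966720000, -662383879250688000, 476941037763456000, -274554981146880000, 112525585579008000, -25839260447616000, 2018227010688000],
    .add (.add (.add (.add (.add (.add (.add (.add (.add (.add (.mul (.mul (.mul (.c 8) (.P)) (.pow (.u) 2)) (.v)) (.mul (.mul (.mul (.c 8) (.P)) (.t)) (.pow (.u) 2))) (.mul (.mul (.mul (.c (-22)) (.P)) (.s)) (.pow (.u) 2))) (.mul (.mul (.mul (.c (-180)) (.P)) (.s)) (.pow (.t) 2))) (.mul (.mul (.c (-540)) (.T)) (.pow (.u) 4))) (.mul (.mul (.mul (.c 540) (.T)) (.pow (.t) 2)) (.pow (.u) 2))) (.mul (.mul (.c 540) (.T)) (.pow (.t) 4))) (.mul (.mul (.mul (.c 18) (.T)) (.w)) (.pow (.u) 2))) (.mul (.mul (.mul (.c 108) (.T)) (.w)) (.pow (.t) 2))) (.mul (.mul (.mul (.mul (.c 18) (.T)) (.w)) (.s)) (.pow (.u) 2)))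 (.mul (.mul (.mul (.mul (.c 108) (.T)) (.w)) (.s)) (.pow (.t) 2)),
    .c 0⟩

/-- free row column 13 -/
def rf13 : RFz := ⟨⟨0, 6, 0, [(1, 1)]⟩, [0, -7143044052960, 36734775661530, -47787660591630, -42842426555190, 120499720239720, 89269008196590, -525356796913440, 769858123397040, -657309801249720, 402323893371360, -191650719450390, 63606852866700, -10227543484320],
    .mul (.pow (.P) 3) (.add (.mul (.c (-60)) (.P)) (.mul (.mul (.c (-360)) (.T)) (.s))),
    .c 0⟩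

/-- free row column 14 -/
def rf14 : RFz := ⟨⟨0, 6, 1, [(1, 1)]⟩, [0, 687029125320, 5033407481640, -49424049271800, 126282334862880, -160208565123240, 195932729692800, -345454100147520, 469978451748000, -370561229447040, 154615688532360, -26863800385680],
    .mul (.pow (.P) 3) (.add (.mul (.mul (.c 60) (.P)) (.t)) (.mul (.mul (.mul (.c 360) (.T)) (.s)) (.t))),
    .c 0⟩

/-- free row column 15 -/
def rf15 : RFz := ⟨⟨0, 7, 2, [(1, 1)]⟩, [0, 0, 356510863613970, -2353787559402870, 1656660885594240, 17374782334390350, -70283101294539900, 148713618799624920, -204644478394643670, 197305961254682760, -145325487947104080, 88284936988402170, -42899438030678820, 13970282436630990, -2145495331488060],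
    .mul (.pow (.P) 2) (.add (.add (.add (.add (.add (.add (.add (.add (.add (.add (.mul (.mul (.c (-60)) (.P)) (.pow (.u) 2)) (.mul (.mul (.c 120) (.P)) (.pow (.t) 2))) (.mul (.mul (.mul (.c 4) (.P)) (.s)) (.v))) (.mul (.mul (.mul (.c 4) (.P)) (.s)) (.t))) (.mul (.mul (.c (-22)) (.P)) (.pow (.s) 2))) (.mul (.mul (.c 2) (.P)) (.w))) (.mul (.mul (.mul (.c 2) (.P)) (.w)) (.s))) (.mul (.mul (.mul (.c (-420)) (.T)) (.s)) (.pow (.u) 2))) (.mul (.mul (.mul (.c 840) (.T)) (.s)) (.pow (.t) 2))) (.mul (.mul (.mul (.c 14) (.T)) (.w)) (.s))) (.mul (.mul (.mul (.c 14) (.T)) (.w)) (.pow (.s) 2))),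
    .c 0⟩

/-- free row column 16 -/
def rf16 : RFz := ⟨⟨0, 7, 3, [(1, 1)]⟩, [0, 0, 0, -72138058158600, -55657913812200, 2663831479894200, -9099934990221600, 16821899337940200, -27668788236432000, 42971231799921600, -49347737433540000, 36268366367318400, -15685178585315400, 3454897431661200, -252680486083200],
    .mul (.pow (.P) 2) (.add (.add (.add (.add (.add (.add (.add (.add (.add (.add (.mul (.mul (.mul (.c (-60)) (.P)) (.t)) (.pow (.u) 2)) (.mul (.mul (.c 120) (.P)) (.pow (.t) 3))) (.mul (.mul (.mul (.mul (.c 6) (.P)) (.s)) (.t)) (.v))) (.mul (.mul (.mul (.c 6) (.P)) (.s)) (.pow (.t) 2))) (.mul (.mul (.mul (.c (-78)) (.P)) (.pow (.s) 2)) (.t))) (.mul (.mul (.mul (.c 6) (.P)) (.w)) (.t))) (.mul (.mul (.mul (.mul (.c 6) (.P)) (.w)) (.s)) (.t))) (.mul (.mul (.mul (.mul (.c (-420)) (.T)) (.s)) (.t)) (.pow (.u) 2))) (.mul (.mul (.mul (.c 840) (.T)) (.s)) (.pow (.t) 3))) (.mul (.mul (.mul (.mul (.c 42) (.T)) (.w)) (.s)) (.t)))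 (.mul (.mul (.mul (.mul (.c 42) (.T)) (.w)) (.pow (.s) 2)) (.t))),
    .c 0⟩

/-- free row column 17 -/
def rf17 : RFz := ⟨⟨0, 8, 4, [(1, 1)]⟩, [0, 0, 0, 0, -1889330094630000, 343625578290000, 60145324688106000, -222485115761496000, 440573554088910000, -751690555215840000, 1150955313938640000, -1292440742307000000, 939826499240736000, -408709082146518000, 92901402795564000, -7580414582496000],
    .mul (.P) (.add (.add (.add (.add (.add (.add (.add (.add (.add (.add (.add (.add (.add (.add (.add (.add (.add (.mul (.mul (.c (-60)) (.P)) (.pow (.u) 4)) (.mul (.mul (.mul (.c 60) (.P)) (.pow (.t) 2)) (.pow (.u) 2))) (.mul (.mul (.c 60) (.P)) (.pow (.t) 4))) (.mul (.mul (.mul (.mul (.c 8) (.P)) (.s)) (.pow (.u) 2)) (.v))) (.mul (.mul (.mul (.mul (.c 8) (.P)) (.s)) (.t)) (.pow (.u) 2))) (.mul (.mul (.mul (.c (-22)) (.P)) (.pow (.s) 2)) (.pow (.u) 2))) (.mul (.mul (.mul (.c (-180)) (.P)) (.pow (.s) 2)) (.pow (.t) 2))) (.mul (.mul (.mul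 (.c 2) (.P)) (.w)) (.pow (.u) 2))) (.mul (.mul (.mul (.c 12) (.P)) (.w)) (.pow (.t) 2))) (.mul (.mul (.mul (.mul (.c 2) (.P)) (.w)) (.s)) (.pow (.u) 2))) (.mul (.mul (.mul (.mul (.c 12) (.P)) (.w)) (.s)) (.pow (.t) 2))) (.mul (.mul (.mul (.c (-480)) (.T)) (.s)) (.pow (.u) 4))) (.mul (.mul (.mul (.mul (.c 480) (.T)) (.s)) (.pow (.t) 2)) (.pow (.u) 2))) (.mul (.mul (.mul (.c 480) (.T)) (.s)) (.pow (.t) 4))) (.mul (.mul (.mul (.mul (.c 16) (.T)) (.w)) (.s)) (.pow (.u) 2))) (.mul (.mul (.mul (.mul (.c 96) (.T)) (.w)) (.s)) (.pow (.t) 2))) (.mul (.mul (.mul (.mul (.c 16) (.T)) (.w)) (.pow (.s) 2)) (.pow (.u) 2))) (.mul (.mul (.mul (.mul (.c 96) (.T)) (.w)) (.pow (.s) 2)) (.pow (.t) 2))),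
    .c 0⟩

/-- free row column 18 -/
def rf18 : RFz := ⟨⟨0, 6, 0, [(2, 1)]⟩, [0, 0, -4426722858240, 27294259090950, -50063387627250, -6241179164490, 102302295577560, -70658507999790, 41005695903840, -281334898989360, 559897903225080, -493834009597920, 213420306014550, -37336255185420],
    .mul (.mul (.s) (.pow (.P) 3)) (.add (.mul (.c (-120)) (.P)) (.mul (.mul (.c (-360)) (.T)) (.s))),
    .c 0⟩

/-- free row column 19 -/
def rf19 : RFz := ⟨⟨0, 7, 2, [(2, 1)]⟩, [0, 0, 0, -455672067368490, -982038984593730, 20194127106191430, -63027536248740840, 106258330817988930, -165313376868544800, 262503545823595440, -311713208121861000, 232615931186388960, -99810669678018810, 20977837588440180, -1259191088981280],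
    .mul (.mul (.s) (.pow (.P) 2)) (.add (.add (.add (.add (.add (.add (.add (.add (.add (.add (.mul (.mul (.c (-120)) (.P)) (.pow (.u) 2)) (.mul (.mul (.c 240) (.P)) (.pow (.t) 2))) (.mul (.mul (.mul (.c 4) (.P)) (.s)) (.v))) (.mul (.mul (.mul (.c 4) (.P)) (.s)) (.t))) (.mul (.mul (.c (-22)) (.P)) (.pow (.s) 2))) (.mul (.mul (.c 4) (.P)) (.w))) (.mul (.mul (.mul (.c 4) (.P)) (.w)) (.s))) (.mul (.mul (.mul (.c (-420)) (.T)) (.s)) (.pow (.u) 2))) (.mul (.mul (.mul (.c 840) (.T)) (.s)) (.pow (.t) 2))) (.mul (.mul (.mul (.c 14) (.T)) (.w)) (.s))) (.mul (.mul (.mul (.c 14) (.T)) (.w)) (.pow (.s) 2))),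
    .c 0⟩

/-- free row column 20 -/
def rf20 : RFz := ⟨⟨0, 7, 3, [(2, 1)]⟩, [0, 0, 0, 0, 27481165012800, 201336299265600, -1976961970872000, 5051293394515200, -6408342604929600, 7837309187712000, -13818164005900800, 18799138069920000, -14822449177881600, 6184627541294400, -1074552015427200],
    .mul (.mul (.s) (.pow (.P) 2)) (.add (.add (.add (.add (.add (.add (.add (.add (.add (.add (.mul (.mul (.mul (.c (-120)) (.P)) (.t)) (.pow (.u) 2)) (.mul (.mul (.c 240) (.P)) (.pow (.t) 3))) (.mul (.mul (.mul (.mul (.c 6) (.P)) (.s)) (.t)) (.v))) (.mul (.mul (.mul (.c 6) (.P)) (.s)) (.pow (.t) 2))) (.mul (.mul (.mul (.c (-78)) (.P)) (.pow (.s) 2)) (.t))) (.mul (.mul (.mul (.c 12) (.P)) (.w)) (.t))) (.mul (.mul (.mul (.mul (.c 12) (.P)) (.w)) (.s)) (.t))) (.mul (.mul (.mul (.mul (.c (-420)) (.T)) (.s)) (.t)) (.pow (.u) 2))) (.mul (.mul (.mul (.c 840) (.T)) (.s)) (.pow (.t) 3))) (.mul (.mul (.mul (.mul (.c 42) (.T)) (.w)) (.s)) (.t)))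 (.mul (.mul (.mul (.mul (.c 42) (.T)) (.w)) (.pow (.s) 2)) (.t))),
    .c 0⟩

/-- free row column 21 -/
def rf21 : RFz := ⟨⟨0, 8, 4, [(2, 1)]⟩, [0, 0, 0, 0, 0, 687029125320000, 5033407481640000, -49424049271800000, 126282334862880000, -160208565123240000, 195932729692800000, -345454100147520000, 469978451748000000, -370561229447040000, 154615688532360000, -26863800385680000],
    .mul (.mul (.s) (.P)) (.add (.add (.add (.add (.add (.add (.add (.add (.add (.add (.add (.add (.add (.add (.add (.add (.add (.mul (.mul (.c (-120)) (.P)) (.pow (.u) 4)) (.mul (.mul (.mul (.c 120) (.P)) (.pow (.t) 2)) (.pow (.u) 2))) (.mul (.mul (.c 120) (.P)) (.pow (.t) 4))) (.mul (.mul (.mul (.mul (.c 8) (.P)) (.s)) (.pow (.u) 2)) (.v))) (.mul (.mul (.mul (.mul (.c 8) (.P)) (.s)) (.t)) (.pow (.u) 2))) (.mul (.mul (.mul (.c (-22)) (.P)) (.pow (.s) 2)) (.pow (.u) 2))) (.mul (.mul (.mul (.c (-180)) (.P)) (.pow (.s) 2)) (.pow (.t) 2))) (.mul (.mul (.mul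 (.c 4) (.P)) (.w)) (.pow (.u) 2))) (.mul (.mul (.mul (.c 24) (.P)) (.w)) (.pow (.t) 2))) (.mul (.mul (.mul (.mul (.c 4) (.P)) (.w)) (.s)) (.pow (.u) 2))) (.mul (.mul (.mul (.mul (.c 24) (.P)) (.w)) (.s)) (.pow (.t) 2))) (.mul (.mul (.mul (.c (-480)) (.T)) (.s)) (.pow (.u) 4))) (.mul (.mul (.mul (.mul (.c 480) (.T)) (.s)) (.pow (.t) 2)) (.pow (.u) 2))) (.mul (.mul (.mul (.c 480) (.T)) (.s)) (.pow (.t) 4))) (.mul (.mul (.mul (.mul (.c 16) (.T)) (.w)) (.s)) (.pow (.u) 2))) (.mul (.mul (.mul (.mul (.c 96) (.T)) (.w)) (.s)) (.pow (.t) 2))) (.mul (.mul (.mul (.mul (.c 16) (.T)) (.w)) (.pow (.s) 2)) (.pow (.u) 2))) (.mul (.mul (.mul (.mul (.c 96) (.T)) (.w)) (.pow (.s) 2)) (.pow (.t) 2))),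
    .c 0⟩

/-- free row column 22 -/
def rf22 : RFz := ⟨⟨0, 6, 0, [(3, 1)]⟩, [0, 0, -744281552430, 2427973090890, 11447825150370, -67477359928440, 173559278883510, -330524650812000, 485884463233680, -509143322727000, 357431953157280, -158342517400350, 39672423603900, -4211341434720],
    .mul (.mul (.pow (.s) 2) (.pow (.P) 3)) (.add (.mul (.c (-180)) (.P)) (.mul (.mul (.c (-360)) (.T)) (.s))),
    .c 0⟩

/-- free row column 23 -/
def rf23 : RFz := ⟨⟨0, 7, 2, [(3, 1)]⟩, [0, 0, 0, 0, 150688388153520, 1103994040973040, -10840341473614800, 27697925446591680, -35139078617030640, 42974578712620800, -75769599299022720, 103081940416728000, -81276429658717440, 33912374351430960, -5892126884592480],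
    .mul (.mul (.pow (.s) 2) (.pow (.P) 2)) (.add (.add (.add (.add (.add (.add (.add (.add (.add (.add (.mul (.mul (.c (-180)) (.P)) (.pow (.u) 2)) (.mul (.mul (.c 360) (.P)) (.pow (.t) 2))) (.mul (.mul (.mul (.c 4) (.P)) (.s)) (.v))) (.mul (.mul (.mul (.c 4) (.P)) (.s)) (.t))) (.mul (.mul (.c (-22)) (.P)) (.pow (.s) 2))) (.mul (.mul (.c 6) (.P)) (.w))) (.mul (.mul (.mul (.c 6) (.P)) (.w)) (.s))) (.mul (.mul (.mul (.c (-420)) (.T)) (.s)) (.pow (.u) 2))) (.mul (.mul (.mul (.c 840) (.T)) (.s)) (.pow (.t) 2))) (.mul (.mul (.mul (.c 14) (.T)) (.w)) (.s))) (.mul (.mul (.mul (.c 14) (.T)) (.w)) (.pow (.s) 2))),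
    .c 0⟩

/-- free row column 24 -/
def rf24 : RFz := ⟨⟨0, 6, 0, [(4, 1)]⟩, [0, 0, 0, 458019416880, 3355604987760, -32949366181200, 84188223241920, -106805710082160, 130621819795200, -230302733431680, 313318967832000, -247040819631360, 103077125688240, -17909200257120],
    .mul (.mul (.pow (.s) 3) (.pow (.P) 3)) (.add (.mul (.c (-240)) (.P)) (.mul (.mul (.c (-360)) (.T)) (.s))),
    .c 0⟩

/-- free row column 25 -/
def rf25 : RFz := ⟨⟨1, 5, 0, [(0, 1)]⟩, [1233623551600, -6462244734645, 9355133291855, 6331921766739, -30491899858964, 26873763073585, 91912449040, -9569807764520, -1055514555780, 5427209475344, -1097998582157, -996996992294, 360972122976],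
    .c 0,
    .c 0⟩

/-- free row column 26 -/
def rf26 : RFz := ⟨⟨1, 6, 0, [(0, 1)]⟩, [-912638968720, 4579980840819, -5424404056073, -9455927295400, 30499316135589, -25267880721874, -6096166677852, 27195594849839, -23335514756628, 9075842697064, 2500402119743, -6286988335590, 3726890756597, -798506587514],
    .c 0,
    .c 0⟩

/-- free row column 27 -/
def rf27 : RFz := ⟨⟨1, 6, 1, [(0, 1)]⟩, [1717572813300, -50999395640220, 194869986373170, -58483423268490, -1072760417078550, 2656247012619000, -2723390197037190, 996856264068720, 451756215814320, -666109648957140, 494718476372280, -376520008920690, 192386127207780, -40308553732320],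
    .mul (.pow (.P) 3) (.add (.add (.mul (.c (-720)) (.P)) (.mul (.mul (.c 360) (.T)) (.v))) (.mul (.mul (.c 360) (.T)) (.t))),
    .mul (.pow (.P) 3) (.mul (.c (-2)) (.P))⟩

/-- free row column 28 -/
def rf28 : RFz := ⟨⟨1, 7, 0, [(0, 1)]⟩, [-502072662528, 2622319690944, -3058786921728, -6444991677888, 18235264188288, -8156838791616, -16175343611904, 17088658741440, 3156643260864, -9121028276160, -686679141504, 4599861106368, -1209673193472, -587980793088, 240648081984],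
    .c 0,
    .c 0⟩

/-- free row column 29 -/
def rf29 : RFz := ⟨⟨1, 7, 1, [(0, 1)]⟩, [-1717572813300, 14579693243100, 13124277882900, -290516741617320, 1004730345556920, -1972191132238500, 2413952230122180, -1283623119516960, -1227060598974300, 2971192119695820, -2355241070879640, 585420141000600, 351730598888880, -283489789783860, 59110619433480],
    .mul (.pow (.P) 2) (.add (.add (.mul (.c (-720)) (.P)) (.mul (.mul (.c 420) (.T)) (.v))) (.mul (.mul (.c 420) (.T)) (.t))),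
    .mul (.pow (.P) 2) (.mul (.c (-2)) (.P))⟩

/-- free row column 30 -/
def rf30 : RFz := ⟨⟨1, 7, 3, [(0, 1)]⟩, [0, 0, -22328446572900, -104229721602900, 1413449195847300, -4186247539861800, 6522226093532700, -9822588305248800, 16823464805921400, -19838608285928400, 10408942473148800, 2762989634972700, -6828748743310200, 3514308527349000, -642763195203600],
    .mul (.pow (.P) 2) (.add (.add (.add (.add (.add (.add (.add (.add (.add (.add (.mul (.mul (.c (-6)) (.P)) (.pow (.v) 2)) (.mul (.mul (.c (-840)) (.P)) (.pow (.u) 2))) (.mul (.mul (.mul (.c (-12)) (.P)) (.t)) (.v))) (.mul (.mul (.c (-5046)) (.P)) (.pow (.t) 2))) (.mul (.mul (.mul (.c (-12)) (.P)) (.s)) (.v))) (.mul (.mul (.mul (.c (-12)) (.P)) (.s)) (.t))) (.mul (.mul (.c 6) (.P)) (.w))) (.mul (.mul (.mul (.c 6) (.P)) (.w)) (.s))) (.mul (.mul (.mul (.c 420) (.T)) (.pow (.u) 2)) (.v))) (.mul (.mul (.mul (.c 420) (.T)) (.t)) (.pow (.u) 2))) (.mul (.mul (.mul (.c (-2520))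 (.T)) (.s)) (.pow (.t) 2))),
    .mul (.pow (.P) 2) (.mul (.mul (.c (-6)) (.P)) (.pow (.t) 2))⟩

/-- free row column 31 -/
def rf31 : RFz := ⟨⟨1, 8, 0, [(0, 1)]⟩, [181088079648, -759139939488, -188701943136, 6478652854464, -14007737169888, 8919897553056, 9457675649184, -20990831751456, 15330700331520, -3771230166144, -3864254927904, 7053002600448, -6191012784768, 3013586987712, -717757234656, 56061861408],
    .c 0,
    .c 0⟩

/-- free row column 32 -/
def rf32 : RFz := ⟨⟨1, 8, 1, [(0, 1)]⟩, [0, 58150271954880, -298117765733760, 320944210876800, 848309513627520, -2335163270771520, 1295650387160640, 1561680817724160, -1984851806353920, -8256793970880, 654028425509760, 279364410440640, -575074881642240, 148548402354240, 60056127432000, -25268048608320],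
    .mul (.P) (.add (.add (.mul (.c (-720)) (.P)) (.mul (.mul (.c 480) (.T)) (.v))) (.mul (.mul (.c 480) (.T)) (.t))),
    .mul (.P) (.mul (.c (-2)) (.P))⟩

/-- free row column 33 -/
def rf33 : RFz := ⟨⟨1, 8, 3, [(0, 1)]⟩, [0, 0, 0, 445686659812800, -2411822702721600, 3660839166196800, 1781637747321600, -9179280266486400, 3758583767904000, 9855784448899200, -11326368333067200, 1693447798694400, 2805904509206400, -694485611467200, -642607670376000, 252680486083200],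
    .mul (.P) (.add (.add (.add (.add (.add (.add (.add (.add (.add (.add (.mul (.mul (.c (-6)) (.P)) (.pow (.v) 2)) (.mul (.mul (.c (-840)) (.P)) (.pow (.u) 2))) (.mul (.mul (.mul (.c (-12)) (.P)) (.t)) (.v))) (.mul (.mul (.c (-5046)) (.P)) (.pow (.t) 2))) (.mul (.mul (.mul (.c (-12)) (.P)) (.s)) (.v))) (.mul (.mul (.mul (.c (-12)) (.P)) (.s)) (.t))) (.mul (.mul (.c 6) (.P)) (.w))) (.mul (.mul (.mul (.c 6) (.P)) (.w)) (.s))) (.mul (.mul (.mul (.c 480) (.T)) (.pow (.u) 2)) (.v))) (.mul (.mul (.mul (.c 480) (.T)) (.t)) (.pow (.u) 2))) (.mul (.mul (.mul (.c (-2880)) (.T)) (.s)) (.pow (.t) 2))),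
    .mul (.P) (.mul (.mul (.c (-6)) (.P)) (.pow (.t) 2))⟩

/-- free row column 34 -/
def rf34 : RFz := ⟨⟨1, 9, 1, [(0, 1)]⟩, [0, -21730569557760, 91096792738560, 22644233176320, -777438342535680, 1680928460386560, -1070387706366720, -1134921077902080, 2518899810174720, -1839684039782400, 452547619937280, 463710591348480, -846360312053760, 742921534172160, -361630438525440, 86130868158720, -6727423368960],
    .add (.add (.mul (.c (-720)) (.P)) (.mul (.mul (.c 540) (.T)) (.v))) (.mul (.mul (.c 540) (.T)) (.t)),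
    .mul (.c (-2)) (.P)⟩

/-- free row column 35 -/
def rf35 : RFz := ⟨⟨1, 9, 3, [(0, 1)]⟩, [0, 0, 0, -217305695577600, 910967927385600, 9136636185600, -6863415497971200, 16818421240051200, -17567292561638400, 5469210461030400, 7621705540108800, -12927629936793600, 12147181739481600, -8290524023308800, 3683578618944000, -861308681587200, 67274233689600],
    .add (.add (.add (.add (.add (.add (.add (.add (.add (.add (.mul (.mul (.c (-6)) (.P)) (.pow (.v) 2)) (.mul (.mul (.c (-840)) (.P)) (.pow (.u) 2))) (.mul (.mul (.mul (.c (-12)) (.P)) (.t)) (.v))) (.mul (.mul (.c (-5046)) (.P)) (.pow (.t) 2))) (.mul (.mul (.mul (.c (-12)) (.P)) (.s)) (.v))) (.mul (.mul (.mul (.c (-12)) (.P)) (.s)) (.t))) (.mul (.mul (.c 6) (.P)) (.w))) (.mul (.mul (.mul (.c 6) (.P)) (.w)) (.s))) (.mul (.mul (.mul (.c 540) (.T)) (.pow (.u) 2)) (.v))) (.mul (.mul (.mul (.c 540) (.T)) (.t)) (.pow (.u) 2))) (.mul (.mul (.mul (.c (-3240)) (.T)) (.s)) (.pow (.t)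 2)),
    .mul (.mul (.c (-6)) (.P)) (.pow (.t) 2)⟩

/-- free row column 36 -/
def rf36 : RFz := ⟨⟨1, 5, 0, [(1, 1)]⟩, [41985113214, 77323234694, -2006931713750, 6628656407300, -11296491173802, 17948773041488, -30073684546524, 33606798479064, -14390116067520, -10211371359586, 16165211258724, -7934431973508, 1444380330696],
    .c 0,
    .c 0⟩

/-- free row column 37 -/
def rf37 : RFz := ⟨⟨1, 6, 1, [(1, 1)]⟩, [0, 1717572813300, -65688528479580, 316862923903470, -474198128185950, -213564103691130, 1326215492450280, -1280459964235410, 547633262130480, -1019571960059280, 2057644898024220, -1858131669846600, 797670310892490, -135989384498100],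
    .mul (.pow (.P) 3) (.add (.add (.add (.add (.mul (.mul (.c 60) (.P)) (.v)) (.mul (.mul (.c 60) (.P)) (.t))) (.mul (.mul (.c (-720)) (.P)) (.s))) (.mul (.mul (.mul (.c 360) (.T)) (.s)) (.v))) (.mul (.mul (.mul (.c 360) (.T)) (.s)) (.t))),
    .mul (.pow (.P) 3) (.mul (.mul (.c (-2)) (.P)) (.s))⟩

/-- free row column 38 -/
def rf38 : RFz := ⟨⟨1, 7, 3, [(1, 1)]⟩, [0, 0, 0, -4007669897700, 207063392237100, -974539892736900, 1343208131823600, 934549963218900, -4690866732552000, 5364424559743200, -2741540968530000, 841325809464000, -627190494480900, 473804697832200, -126340243041600],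
    .mul (.pow (.P) 2) (.add (.add (.add (.add (.add (.add (.add (.add (.add (.add (.add (.add (.mul (.mul (.mul (.c 60) (.P)) (.pow (.u) 2)) (.v)) (.mul (.mul (.mul (.c 60) (.P)) (.t)) (.pow (.u) 2))) (.mul (.mul (.mul (.c (-6)) (.P)) (.s)) (.pow (.v) 2))) (.mul (.mul (.mul (.c (-840)) (.P)) (.s)) (.pow (.u) 2))) (.mul (.mul (.mul (.mul (.c (-12)) (.P)) (.s)) (.t)) (.v))) (.mul (.mul (.mul (.c (-5406)) (.P)) (.s)) (.pow (.t) 2))) (.mul (.mul (.mul (.c (-12)) (.P)) (.pow (.s) 2)) (.v))) (.mul (.mul (.mul (.c (-12)) (.P)) (.pow (.s) 2)) (.t))) (.mul (.mul (.mul (.c 6) (.P)) (.w)) (.s))) (.mul (.mul (.mul (.c 6) (.P)) (.w)) (.pow (.s) 2))) (.mul (.mul (.mul (.mul (.c 420) (.T)) (.s)) (.pow (.u) 2)) (.v))) (.mul (.mul (.mul (.mul (.c 420) (.T)) (.s)) (.t)) (.pow (.u) 2))) (.mul (.mul (.mul (.c (-2520)) (.T)) (.pow (.s) 2)) (.pow (.t) 2))),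
    .mul (.pow (.P) 2) (.mul (.mul (.mul (.c (-6)) (.P)) (.s)) (.pow (.t) 2))⟩

/-- free row column 39 -/
def rf39 : RFz := ⟨⟨1, 5, 0, [(2, 1)]⟩, [0, 19084142370, -385571871910, 1433436068722, -1114057554232, -4450237920090, 13326855401120, -17038781986800, 13054956993000, -7359408901728, 3684359447474, -1450881556452, 280756095648],
    .c 0,
    .c 0⟩

/-- free row column 40 -/
def rf40 : RFz := ⟨⟨1, 6, 1, [(2, 1)]⟩, [0, 0, -8702368920720, -709845199440, 289278798290160, -1044948218879040, 2029308491561040, -3427928125267200, 5268892106459520, -5953060388808000, 4341700543046400, -1885202893332240, 424834590373920, -33690731477760],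
    .mul (.mul (.s) (.pow (.P) 3)) (.add (.add (.add (.add (.mul (.mul (.c 120) (.P)) (.v)) (.mul (.mul (.c 120) (.P)) (.t))) (.mul (.mul (.c (-720)) (.P)) (.s))) (.mul (.mul (.mul (.c 360) (.T)) (.s)) (.v))) (.mul (.mul (.mul (.c 360) (.T)) (.s)) (.t))),
    .mul (.mul (.s) (.pow (.P) 3)) (.mul (.mul (.c (-2)) (.P)) (.s))⟩

/-- free row column 41 -/
def rf41 : RFz := ⟨⟨1, 7, 3, [(2, 1)]⟩, [0, 0, 0, 0, 9160388337600, 67112099755200, -658987323624000, 1683764464838400, -2136114201643200, 2612436395904000, -4606054668633600, 6266379356640000, -4940816392627200, 2061542513764800, -358184005142400],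
    .mul (.mul (.s) (.pow (.P) 2)) (.add (.add (.add (.add (.add (.add (.add (.add (.add (.add (.add (.add (.mul (.mul (.mul (.c 120) (.P)) (.pow (.u) 2)) (.v)) (.mul (.mul (.mul (.c 120) (.P)) (.t)) (.pow (.u) 2))) (.mul (.mul (.mul (.c (-6)) (.P)) (.s)) (.pow (.v) 2))) (.mul (.mul (.mul (.c (-840)) (.P)) (.s)) (.pow (.u) 2))) (.mul (.mul (.mul (.mul (.c (-12)) (.P)) (.s)) (.t)) (.v))) (.mul (.mul (.mul (.c (-5766)) (.P)) (.s)) (.pow (.t) 2))) (.mul (.mul (.mul (.c (-12)) (.P)) (.pow (.s) 2)) (.v))) (.mul (.mul (.mul (.c (-12)) (.P)) (.pow (.s) 2)) (.t))) (.mul (.mul (.mul (.c 6) (.P)) (.w)) (.s))) (.mul (.mul (.mul (.c 6) (.P)) (.w)) (.pow (.s) 2))) (.mul (.mul (.mul (.mul (.c 420) (.T)) (.s)) (.pow (.u) 2)) (.v))) (.mul (.mul (.mul (.mul (.c 420) (.T)) (.s)) (.t)) (.pow (.u) 2))) (.mul (.mul (.mul (.c (-2520)) (.T)) (.pow (.s) 2)) (.pow (.t) 2))),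
    .mul (.mul (.s) (.pow (.P) 2)) (.mul (.mul (.mul (.c (-6)) (.P)) (.s)) (.pow (.t) 2))⟩

/-- free row column 42 -/
def rf42 : RFz := ⟨⟨1, 5, 0, [(3, 1)]⟩, [0, 0, -30534627792, -223706999184, 2196624412080, -5612548216128, 7120380672144, -8708121319680, 15353515562112, -20887931188800, 16469387975424, -6871808379216, 1193946683808],
    .c 0,
    .c 0⟩

/-- free row column 43 -/
def rf43 : RFz := ⟨⟨1, 6, 1, [(3, 1)]⟩, [0, 0, 0, 4122174751920, 30200444889840, -296544295630800, 757694009177280, -961251390739440, 1175596378156800, -2072724600885120, 2819870710488000, -2223367376682240, 927694131194160, -161182802314080],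
    .mul (.mul (.pow (.s) 2) (.pow (.P) 3)) (.add (.add (.add (.add (.mul (.mul (.c 180) (.P)) (.v)) (.mul (.mul (.c 180) (.P)) (.t))) (.mul (.mul (.c (-720)) (.P)) (.s))) (.mul (.mul (.mul (.c 360) (.T)) (.s)) (.v))) (.mul (.mul (.mul (.c 360) (.T)) (.s)) (.t))),
    .mul (.mul (.pow (.s) 2) (.pow (.P) 3)) (.mul (.mul (.c (-2)) (.P)) (.s))⟩

/-- free row column 44 -/
def rf44 : RFz := ⟨⟨3, 6, 0, [(0, 1)]⟩, [0, -13509996336000, 72048172107060, -103926100865820, -75952448242860, 320348567545680, -164685752034660, -269183842238400, 356305375447200, -94028847974640, -44378506612800, -234215276460, 25617246436440, -8422682869440],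
    .mul (.pow (.P) 3) (.add (.mul (.c 660) (.P)) (.mul (.mul (.c 360) (.T)) (.s))),
    .c 0⟩

/-- free row column 45 -/
def rf45 : RFz := ⟨⟨3, 6, 1, [(0, 1)]⟩, [0, 572524271100, -20497211127540, 93282854833650, -130931146562610, -62866462344390, 373248309272280, -396404370597150, 127870159505040, 60404095057680, -65881940297580, 33028138170600, -16263823568730, 4451878747860],
    .mul (.pow (.P) 3) (.add (.mul (.mul (.c 720) (.P)) (.t)) (.mul (.mul (.mul (.c 360) (.T)) (.s)) (.t))),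
    .c 0⟩

/-- free row column 46 -/
def rf46 : RFz := ⟨⟨3, 7, 0, [(0, 1)]⟩, [0, 18942638725440, -94936875145920, 104334358000320, 247001521294080, -742791471615360, 609310752272640, 125330685367680, -541373539233600, 417745078156800, -266893635150720, 217029668909760, -123605322552000, 31828261933440, -1922120962560],
    .mul (.pow (.P) 2) (.add (.mul (.c 660) (.P)) (.mul (.mul (.c 420) (.T)) (.s))),
    .c 0⟩

/-- free row column 47 -/
def rf47 : RFz := ⟨⟨3, 7, 2, [(0, 1)]⟩, [0, 0, -3549650480820, -665406028492260, 4537465764067140, -11460507939691800, 16551430127449020, -25521680894638560, 47437535424922920, -59806941754110480, 35433126864616320, 3008045314896780, -17218415934284760, 9505360020573720, -1795182708953520],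
    .mul (.pow (.P) 2) (.add (.add (.add (.add (.add (.add (.add (.add (.add (.add (.add (.add (.mul (.mul (.c 780) (.P)) (.pow (.u) 2)) (.mul (.mul (.mul (.c 26) (.P)) (.s)) (.v))) (.mul (.mul (.mul (.c 26) (.P)) (.s)) (.t))) (.mul (.mul (.c 22) (.P)) (.pow (.s) 2))) (.mul (.mul (.c (-4)) (.P)) (.w))) (.mul (.mul (.mul (.c (-4)) (.P)) (.w)) (.s))) (.mul (.mul (.mul (.c 420) (.T)) (.s)) (.pow (.u) 2))) (.mul (.mul (.mul (.c (-14)) (.T)) (.w)) (.v))) (.mul (.mul (.mul (.c (-14)) (.T)) (.w)) (.t))) (.mul (.mul (.mul (.c (-14)) (.T)) (.w)) (.s))) (.mul (.mul (.mul (.mul (.c (-14)) (.T)) (.w)) (.s)) (.v))) (.mul (.mul (.mul (.mul (.c (-14)) (.T)) (.w)) (.s)) (.t))) (.mul (.mul (.mul (.c (-14)) (.T)) (.w)) (.pow (.s) 2))),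
    .c 0⟩

/-- free row column 48 -/
def rf48 : RFz := ⟨⟨3, 7, 3, [(0, 1)]⟩, [0, 0, 0, -17175728133000, 279464703039000, -929279077043400, 408407488754400, 4005214128081000, -10980476772624000, 14377967890344000, -11749461293700000, 7000691257929600, -3394419032809800, 1215193630640400, -216583273785600],
    .mul (.pow (.P) 2) (.add (.add (.add (.add (.add (.add (.add (.add (.add (.add (.add (.add (.add (.add (.mul (.mul (.mul (.c 2520) (.P)) (.t)) (.pow (.u) 2)) (.mul (.mul (.c (-1680)) (.P)) (.pow (.t) 3))) (.mul (.mul (.mul (.mul (.c 84) (.P)) (.s)) (.t)) (.v))) (.mul (.mul (.mul (.c 84) (.P)) (.s)) (.pow (.t) 2))) (.mul (.mul (.mul (.c 78) (.P)) (.pow (.s) 2)) (.t))) (.mul (.mul (.mul (.c (-6)) (.P)) (.w)) (.t))) (.mul (.mul (.mul (.mul (.c (-6)) (.P)) (.w)) (.s)) (.t))) (.mul (.mul (.mul (.mul (.c 1260) (.T)) (.s)) (.t)) (.pow (.u) 2))) (.mul (.mul (.mul (.c (-840)) (.T)) (.s)) (.pow (.t) 3))) (.mul (.mul (.mul (.mul (.c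 (-42)) (.T)) (.w)) (.t)) (.v))) (.mul (.mul (.mul (.c (-42)) (.T)) (.w)) (.pow (.t) 2))) (.mul (.mul (.mul (.mul (.c (-42)) (.T)) (.w)) (.s)) (.t))) (.mul (.mul (.mul (.mul (.mul (.c (-42)) (.T)) (.w)) (.s)) (.t)) (.v))) (.mul (.mul (.mul (.mul (.c (-42)) (.T)) (.w)) (.s)) (.pow (.t) 2))) (.mul (.mul (.mul (.mul (.c (-42)) (.T)) (.w)) (.pow (.s) 2)) (.t))),
    .c 0⟩

/-- free row column 49 -/
def rf49 : RFz := ⟨⟨3, 8, 0, [(0, 1)]⟩, [0, -5432642389440, 22774198184640, 228415904640, -171585387449280, 420460531001280, -439182314040960, 136730261525760, 190542638502720, -323190748419840, 303679543487040, -207263100582720, 92089465473600, -21532717039680, 1681855842240],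
    .mul (.P) (.add (.mul (.c 660) (.P)) (.mul (.mul (.c 480) (.T)) (.s))),
    .c 0⟩

/-- free row column 50 -/
def rf50 : RFz := ⟨⟨3, 8, 2, [(0, 1)]⟩, [0, 0, 0, 1337059979438400, -7235468108164800, 10982517498590400, 5344913241964800, -27537840799459200, 11275751303712000, 29567353346697600, -33979104999201600, 5080343396083200, 8417713527619200, -2083456834401600, -1927823011128000, 758041458249600],
    .mul (.P) (.add (.add (.add (.add (.add (.add (.add (.add (.add (.add (.add (.add (.mul (.mul (.c 780) (.P)) (.pow (.u) 2)) (.mul (.mul (.mul (.c 26) (.P)) (.s)) (.v))) (.mul (.mul (.mul (.c 26) (.P)) (.s)) (.t))) (.mul (.mul (.c 22) (.P)) (.pow (.s) 2))) (.mul (.mul (.c (-4)) (.P)) (.w))) (.mul (.mul (.mul (.c (-4)) (.P)) (.w)) (.s))) (.mul (.mul (.mul (.c 480) (.T)) (.s)) (.pow (.u) 2))) (.mul (.mul (.mul (.c (-16)) (.T)) (.w)) (.v))) (.mul (.mul (.mul (.c (-16)) (.T)) (.w)) (.t))) (.mul (.mul (.mul (.c (-16)) (.T)) (.w))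 (.s))) (.mul (.mul (.mul (.mul (.c (-16)) (.T)) (.w)) (.s)) (.v))) (.mul (.mul (.mul (.mul (.c (-16)) (.T)) (.w)) (.s)) (.t))) (.mul (.mul (.mul (.c (-16)) (.T)) (.w)) (.pow (.s) 2))),
    .c 0⟩

/-- free row column 51 -/
def rf51 : RFz := ⟨⟨3, 8, 3, [(0, 1)]⟩, [0, 0, 0, 0, -162979271683200, 683225945539200, -156126794544000, -4464335677939200, 12457689135494400, -17639805099168000, 16559596981267200, -11923525944086400, 6863874528672000, -2813139639475200, 645981511190400, -50455675267200],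
    .mul (.P) (.add (.add (.add (.add (.add (.add (.add (.add (.add (.add (.add (.add (.add (.add (.mul (.mul (.mul (.c 2520) (.P)) (.t)) (.pow (.u) 2)) (.mul (.mul (.c (-1680)) (.P)) (.pow (.t) 3))) (.mul (.mul (.mul (.mul (.c 84) (.P)) (.s)) (.t)) (.v))) (.mul (.mul (.mul (.c 84) (.P)) (.s)) (.pow (.t) 2))) (.mul (.mul (.mul (.c 78) (.P)) (.pow (.s) 2)) (.t))) (.mul (.mul (.mul (.c (-6)) (.P)) (.w)) (.t))) (.mul (.mul (.mul (.mul (.c (-6)) (.P)) (.w)) (.s)) (.t))) (.mul (.mul (.mul (.mul (.c 1440) (.T)) (.s)) (.t)) (.pow (.u) 2))) (.mul (.mul (.mul (.c (-960)) (.T)) (.s)) (.pow (.t) 3))) (.mul (.mul (.mul (.mul (.c (-48)) (.T)) (.w)) (.t)) (.v))) (.mul (.mul (.mul (.c (-48)) (.T)) (.w)) (.pow (.t) 2))) (.mul (.mul (.mul (.mul (.c (-48)) (.T)) (.w)) (.s)) (.t))) (.mul (.mul (.mul (.mul (.mul (.c (-48)) (.T)) (.w)) (.s)) (.t)) (.v))) (.mul (.mul (.mul (.mul (.c (-48)) (.T)) (.w)) (.s)) (.pow (.t) 2))) (.mul (.mul (.mul (.mul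 (.c (-48)) (.T)) (.w)) (.pow (.s) 2)) (.t))),
    .c 0⟩

/-- free row column 52 -/
def rf52 : RFz := ⟨⟨3, 8, 4, [(0, 1)]⟩, [0, 0, 0, 0, -515271843990000, 10410440541570000, -38702773855494000, 30079553964264000, 120156423842430000, -359825095830240000, 460047113643600000, -352483838811000000, 198704040346656000, -99477705081798000, 39173802024204000, -7580414582496000],
    .mul (.P) (.add (.add (.add (.add (.add (.add (.add (.add (.add (.add (.add (.add (.add (.add (.add (.add (.add (.add (.add (.add (.add (.add (.add (.add (.add (.mul (.mul (.c 900) (.P)) (.pow (.u) 4)) (.mul (.mul (.mul (.c 4500) (.P)) (.pow (.t) 2)) (.pow (.u) 2))) (.mul (.mul (.c (-4500)) (.P)) (.pow (.t) 4))) (.mul (.mul (.mul (.mul (.c 30) (.P)) (.s)) (.pow (.u) 2)) (.v))) (.mul (.mul (.mul (.mul (.c 30) (.P)) (.s)) (.t)) (.pow (.u) 2))) (.mul (.mul (.mul (.mul (.c 180) (.P)) (.s)) (.pow (.t) 2)) (.v))) (.mul (.mul (.mul (.c 180) (.P)) (.s)) (.pow (.t)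 3))) (.mul (.mul (.mul (.c 22) (.P)) (.pow (.s) 2)) (.pow (.u) 2))) (.mul (.mul (.mul (.c 180) (.P)) (.pow (.s) 2)) (.pow (.t) 2))) (.mul (.mul (.mul (.c (-8)) (.P)) (.w)) (.pow (.u) 2))) (.mul (.mul (.mul (.mul (.c (-8)) (.P)) (.w)) (.s)) (.pow (.u) 2))) (.mul (.mul (.mul (.c 480) (.T)) (.s)) (.pow (.u) 4))) (.mul (.mul (.mul (.mul (.c 2400) (.T)) (.s)) (.pow (.t) 2)) (.pow (.u) 2))) (.mul (.mul (.mul (.c (-2400)) (.T)) (.s)) (.pow (.t) 4))) (.mul (.mul (.mul (.mul (.c (-16)) (.T)) (.w)) (.pow (.u) 2)) (.v))) (.mul (.mul (.mul (.mul (.c (-16)) (.T)) (.w)) (.t)) (.pow (.u) 2))) (.mul (.mul (.mul (.mul (.c (-96)) (.T)) (.w)) (.pow (.t) 2)) (.v))) (.mul (.mul (.mul (.c (-96)) (.T)) (.w)) (.pow (.t) 3))) (.mul (.mul (.mul (.mul (.c (-16)) (.T)) (.w)) (.s)) (.pow (.u) 2))) (.mul (.mul (.mul (.mul (.mul (.c (-16)) (.T)) (.w)) (.s)) (.pow (.u) 2)) (.v))) (.mul (.mul (.mul (.mul (.mul (.c (-16)) (.T)) (.w)) (.s)) (.t)) (.pow (.u) 2)))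 (.mul (.mul (.mul (.mul (.c (-96)) (.T)) (.w)) (.s)) (.pow (.t) 2))) (.mul (.mul (.mul (.mul (.mul (.c (-96)) (.T)) (.w)) (.s)) (.pow (.t) 2)) (.v))) (.mul (.mul (.mul (.mul (.c (-96)) (.T)) (.w)) (.s)) (.pow (.t) 3))) (.mul (.mul (.mul (.mul (.c (-16)) (.T)) (.w)) (.pow (.s) 2)) (.pow (.u) 2))) (.mul (.mul (.mul (.mul (.c (-96)) (.T)) (.w)) (.pow (.s) 2)) (.pow (.t) 2))),
    .c 0⟩

/-- free row column 53 -/
def rf53 : RFz := ⟨⟨3, 9, 2, [(0, 1)]⟩, [0, 0, 0, -651917086732800, 2732903782156800, 27409908556800, -20590246493913600, 50455263720153600, -52701877684915200, 16407631383091200, 22865116620326400, -38782889810380800, 36441545218444800, -24871572069926400, 11050735856832000, -2583926044761600, 201822701068800],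
    .add (.add (.add (.add (.add (.add (.add (.add (.add (.add (.add (.add (.mul (.mul (.c 780) (.P)) (.pow (.u) 2)) (.mul (.mul (.mul (.c 26) (.P)) (.s)) (.v))) (.mul (.mul (.mul (.c 26) (.P)) (.s)) (.t))) (.mul (.mul (.c 22) (.P)) (.pow (.s) 2))) (.mul (.mul (.c (-4)) (.P)) (.w))) (.mul (.mul (.mul (.c (-4)) (.P)) (.w)) (.s))) (.mul (.mul (.mul (.c 540) (.T)) (.s)) (.pow (.u) 2))) (.mul (.mul (.mul (.c (-18)) (.T)) (.w)) (.v))) (.mul (.mul (.mul (.c (-18)) (.T)) (.w)) (.t))) (.mul (.mul (.mul (.c (-18)) (.T)) (.w)) (.s))) (.mul (.mul (.mul (.mul (.c (-18)) (.T)) (.w)) (.s)) (.v))) (.mul (.mul (.mul (.mul (.c (-18)) (.T)) (.w)) (.s)) (.t))) (.mul (.mul (.mul (.c (-18)) (.T)) (.w)) (.pow (.s) 2)),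
    .c 0⟩

/-- free row column 54 -/
def rf54 : RFz := ⟨⟨3, 9, 4, [(0, 1)]⟩, [0, 0, 0, 0, 0, -6519170867328000, 27329037821568000, -6245071781760000, -178573427117568000, 498307565419776000, -705592203966720000, 662383879250688000, -476941037763456000, 274554981146880000, -112525585579008000, 25839260447616000, -2018227010688000],
    .add (.add (.add (.add (.add (.add (.add (.add (.add (.add (.add (.add (.add (.add (.add (.add (.add (.add (.add (.add (.add (.add (.add (.add (.add (.mul (.mul (.c 900) (.P)) (.pow (.u) 4)) (.mul (.mul (.mul (.c 4500) (.P)) (.pow (.t) 2)) (.pow (.u) 2))) (.mul (.mul (.c (-4500)) (.P)) (.pow (.t) 4))) (.mul (.mul (.mul (.mul (.c 30) (.P)) (.s)) (.pow (.u) 2)) (.v))) (.mul (.mul (.mul (.mul (.c 30) (.P)) (.s)) (.t)) (.pow (.u) 2))) (.mul (.mul (.mul (.mul (.c 180) (.P)) (.s)) (.pow (.t) 2)) (.v))) (.mul (.mul (.mul (.c 180) (.P)) (.s)) (.pow (.t) 3))) (.mul (.mul (.mul (.c 22) (.P)) (.pow (.s) 2))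 (.pow (.u) 2))) (.mul (.mul (.mul (.c 180) (.P)) (.pow (.s) 2)) (.pow (.t) 2))) (.mul (.mul (.mul (.c (-8)) (.P)) (.w)) (.pow (.u) 2))) (.mul (.mul (.mul (.mul (.c (-8)) (.P)) (.w)) (.s)) (.pow (.u) 2))) (.mul (.mul (.mul (.c 540) (.T)) (.s)) (.pow (.u) 4))) (.mul (.mul (.mul (.mul (.c 2700) (.T)) (.s)) (.pow (.t) 2)) (.pow (.u) 2))) (.mul (.mul (.mul (.c (-2700)) (.T)) (.s)) (.pow (.t) 4))) (.mul (.mul (.mul (.mul (.c (-18)) (.T)) (.w)) (.pow (.u) 2)) (.v))) (.mul (.mul (.mul (.mul (.c (-18)) (.T)) (.w)) (.t)) (.pow (.u) 2))) (.mul (.mul (.mul (.mul (.c (-108)) (.T)) (.w)) (.pow (.t) 2)) (.v))) (.mul (.mul (.mul (.c (-108)) (.T)) (.w)) (.pow (.t) 3))) (.mul (.mul (.mul (.mul (.c (-18)) (.T)) (.w)) (.s)) (.pow (.u) 2))) (.mul (.mul (.mul (.mul (.mul (.c (-18)) (.T)) (.w)) (.s)) (.pow (.u) 2)) (.v))) (.mul (.mul (.mul (.mul (.mul (.c (-18)) (.T)) (.w)) (.s)) (.t)) (.pow (.u) 2))) (.mul (.mul (.mul (.mul (.c (-108)) (.T)) (.w))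 (.s)) (.pow (.t) 2))) (.mul (.mul (.mul (.mul (.mul (.c (-108)) (.T)) (.w)) (.s)) (.pow (.t) 2)) (.v))) (.mul (.mul (.mul (.mul (.c (-108)) (.T)) (.w)) (.s)) (.pow (.t) 3))) (.mul (.mul (.mul (.mul (.c (-18)) (.T)) (.w)) (.pow (.s) 2)) (.pow (.u) 2))) (.mul (.mul (.mul (.mul (.c (-108)) (.T)) (.w)) (.pow (.s) 2)) (.pow (.t) 2)),
    .c 0⟩

/-- free row column 55 -/
def rf55 : RFz := ⟨⟨3, 6, 0, [(1, 1)]⟩, [0, 0, -8077353946560, 50075507901960, -108611228044440, 99387139992840, -86235351976800, 236397758627160, -356053836349440, 127441413930240, 225483528108960, -294909862164480, 140302413952200, -25181944543440],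
    .mul (.pow (.P) 3) (.add (.mul (.mul (.c 720) (.P)) (.s)) (.mul (.mul (.c 360) (.T)) (.pow (.s) 2))),
    .c 0⟩

/-- free row column 56 -/
def rf56 : RFz := ⟨⟨3, 6, 1, [(1, 1)]⟩, [0, 0, -1946582521740, -3002990917980, 79899242135700, -258759230435760, 453924267849180, -724091582193600, 1138275933380640, -1331605613286000, 987052942370880, -424995195827820, 91214062787160, -6016202049600],
    .mul (.pow (.P) 3) (.add (.mul (.mul (.mul (.c 780) (.P)) (.s)) (.t)) (.mul (.mul (.mul (.c 360) (.T)) (.pow (.s) 2)) (.t))),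
    .c 0⟩

/-- free row column 57 -/
def rf57 : RFz := ⟨⟨3, 7, 2, [(1, 1)]⟩, [0, 0, 0, -138894388168860, 939110590125780, -459665752109820, -8316801850203120, 32388831582415020, -68974376646417600, 97558547085401760, -95013976995054000, 63988228516564800, -28984384510215420, 8055338320458360, -1045615916220480],
    .mul (.pow (.P) 2) (.add (.add (.add (.add (.add (.add (.add (.add (.add (.add (.add (.add (.add (.add (.add (.add (.mul (.mul (.mul (.c 840) (.P)) (.s)) (.pow (.u) 2)) (.mul (.mul (.mul (.c 26) (.P)) (.pow (.s) 2)) (.v))) (.mul (.mul (.mul (.c 26) (.P)) (.pow (.s) 2)) (.t))) (.mul (.mul (.c 22) (.P)) (.pow (.s) 3))) (.mul (.mul (.mul (.c (-2)) (.P)) (.w)) (.v))) (.mul (.mul (.mul (.c (-2)) (.P)) (.w)) (.t))) (.mul (.mul (.mul (.c (-6)) (.P)) (.w)) (.s))) (.mul (.mul (.mul (.mul (.c (-2)) (.P)) (.w)) (.s)) (.v))) (.mul (.mul (.mul (.mul (.c (-2)) (.P)) (.w)) (.s)) (.t))) (.mul (.mul (.mul (.c (-6)) (.P)) (.w)) (.pow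 (.s) 2))) (.mul (.mul (.mul (.c 420) (.T)) (.pow (.s) 2)) (.pow (.u) 2))) (.mul (.mul (.mul (.mul (.c (-14)) (.T)) (.w)) (.s)) (.v))) (.mul (.mul (.mul (.mul (.c (-14)) (.T)) (.w)) (.s)) (.t))) (.mul (.mul (.mul (.c (-14)) (.T)) (.w)) (.pow (.s) 2))) (.mul (.mul (.mul (.mul (.c (-14)) (.T)) (.w)) (.pow (.s) 2)) (.v))) (.mul (.mul (.mul (.mul (.c (-14)) (.T)) (.w)) (.pow (.s) 2)) (.t))) (.mul (.mul (.mul (.c (-14)) (.T)) (.w)) (.pow (.s) 3))),
    .c 0⟩

/-- free row column 58 -/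
def rf58 : RFz := ⟨⟨3, 7, 3, [(1, 1)]⟩, [0, 0, 0, 0, 17175728133000, 125835187041000, -1235601231795000, 3157058371572000, -4005214128081000, 4898318242320000, -8636352503688000, 11749461293700000, -9264030736176000, 3865392213309000, -671595009642000],
    .mul (.pow (.P) 2) (.add (.add (.add (.add (.add (.add (.add (.add (.add (.add (.add (.add (.add (.add (.add (.add (.add (.add (.mul (.mul (.mul (.mul (.c 2700) (.P)) (.s)) (.t)) (.pow (.u) 2)) (.mul (.mul (.mul (.c (-1800)) (.P)) (.s)) (.pow (.t) 3))) (.mul (.mul (.mul (.mul (.c 84) (.P)) (.pow (.s) 2)) (.t)) (.v))) (.mul (.mul (.mul (.c 84) (.P)) (.pow (.s) 2)) (.pow (.t) 2))) (.mul (.mul (.mul (.c 78) (.P)) (.pow (.s) 3)) (.t))) (.mul (.mul (.mul (.mul (.c (-6)) (.P)) (.w)) (.t)) (.v))) (.mul (.mul (.mul (.c (-6)) (.P)) (.w)) (.pow (.t) 2))) (.mul (.mul (.mul (.mul (.c (-12)) (.P)) (.w)) (.s)) (.t))) (.mul (.mul (.mul (.mul (.mul (.c (-6)) (.P)) (.w)) (.s)) (.t)) (.v)))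 (.mul (.mul (.mul (.mul (.c (-6)) (.P)) (.w)) (.s)) (.pow (.t) 2))) (.mul (.mul (.mul (.mul (.c (-12)) (.P)) (.w)) (.pow (.s) 2)) (.t))) (.mul (.mul (.mul (.mul (.c 1260) (.T)) (.pow (.s) 2)) (.t)) (.pow (.u) 2))) (.mul (.mul (.mul (.c (-840)) (.T)) (.pow (.s) 2)) (.pow (.t) 3))) (.mul (.mul (.mul (.mul (.mul (.c (-42)) (.T)) (.w)) (.s)) (.t)) (.v))) (.mul (.mul (.mul (.mul (.c (-42)) (.T)) (.w)) (.s)) (.pow (.t) 2))) (.mul (.mul (.mul (.mul (.c (-42)) (.T)) (.w)) (.pow (.s) 2)) (.t))) (.mul (.mul (.mul (.mul (.mul (.c (-42)) (.T)) (.w)) (.pow (.s) 2)) (.t)) (.v))) (.mul (.mul (.mul (.mul (.c (-42)) (.T)) (.w)) (.pow (.s) 2)) (.pow (.t) 2))) (.mul (.mul (.mul (.mul (.c (-42)) (.T)) (.w)) (.pow (.s) 3)) (.t))),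
    .c 0⟩

/-- free row column 59 -/
def rf59 : RFz := ⟨⟨3, 8, 4, [(1, 1)]⟩, [0, 0, 0, 0, 0, 515271843990000, 3775055611230000, -37068036953850000, 94711751147160000, -120156423842430000, 146949547269600000, -259090575110640000, 352483838811000000, -277920922085280000, 115961766399270000, -20147850289260000],
    .mul (.P) (.add (.add (.add (.add (.add (.add (.add (.add (.add (.add (.add (.add (.add (.add (.add (.add (.add (.add (.add (.add (.add (.add (.add (.add (.add (.add (.add (.add (.add (.add (.add (.add (.add (.add (.add (.mul (.mul (.mul (.c 960) (.P)) (.s)) (.pow (.u) 4)) (.mul (.mul (.mul (.mul (.c 4800) (.P)) (.s)) (.pow (.t) 2)) (.pow (.u) 2))) (.mul (.mul (.mul (.c (-4800)) (.P)) (.s)) (.pow (.t) 4))) (.mul (.mul (.mul (.mul (.c 30) (.P)) (.pow (.s) 2)) (.pow (.u) 2)) (.v))) (.mul (.mul (.mul (.mul (.c 30) (.P)) (.pow (.s) 2)) (.t)) (.pow (.u) 2))) (.mul (.mul (.mul (.mul (.c 180) (.P)) (.pow (.s) 2)) (.pow (.t)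 2)) (.v))) (.mul (.mul (.mul (.c 180) (.P)) (.pow (.s) 2)) (.pow (.t) 3))) (.mul (.mul (.mul (.c 22) (.P)) (.pow (.s) 3)) (.pow (.u) 2))) (.mul (.mul (.mul (.c 180) (.P)) (.pow (.s) 3)) (.pow (.t) 2))) (.mul (.mul (.mul (.mul (.c (-2)) (.P)) (.w)) (.pow (.u) 2)) (.v))) (.mul (.mul (.mul (.mul (.c (-2)) (.P)) (.w)) (.t)) (.pow (.u) 2))) (.mul (.mul (.mul (.mul (.c (-12)) (.P)) (.w)) (.pow (.t) 2)) (.v))) (.mul (.mul (.mul (.c (-12)) (.P)) (.w)) (.pow (.t) 3))) (.mul (.mul (.mul (.mul (.c (-10)) (.P)) (.w)) (.s)) (.pow (.u) 2))) (.mul (.mul (.mul (.mul (.mul (.c (-2)) (.P)) (.w)) (.s)) (.pow (.u) 2)) (.v))) (.mul (.mul (.mul (.mul (.mul (.c (-2)) (.P)) (.w)) (.s)) (.t)) (.pow (.u) 2))) (.mul (.mul (.mul (.mul (.c (-12)) (.P)) (.w)) (.s)) (.pow (.t) 2))) (.mul (.mul (.mul (.mul (.mul (.c (-12)) (.P)) (.w)) (.s)) (.pow (.t) 2)) (.v))) (.mul (.mul (.mul (.mul (.c (-12)) (.P)) (.w)) (.s)) (.pow (.t) 3))) (.mul (.mul (.mul (.mul (.c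 (-10)) (.P)) (.w)) (.pow (.s) 2)) (.pow (.u) 2))) (.mul (.mul (.mul (.mul (.c (-12)) (.P)) (.w)) (.pow (.s) 2)) (.pow (.t) 2))) (.mul (.mul (.mul (.c 480) (.T)) (.pow (.s) 2)) (.pow (.u) 4))) (.mul (.mul (.mul (.mul (.c 2400) (.T)) (.pow (.s) 2)) (.pow (.t) 2)) (.pow (.u) 2))) (.mul (.mul (.mul (.c (-2400)) (.T)) (.pow (.s) 2)) (.pow (.t) 4))) (.mul (.mul (.mul (.mul (.mul (.c (-16)) (.T)) (.w)) (.s)) (.pow (.u) 2)) (.v))) (.mul (.mul (.mul (.mul (.mul (.c (-16)) (.T)) (.w)) (.s)) (.t)) (.pow (.u) 2))) (.mul (.mul (.mul (.mul (.mul (.c (-96)) (.T)) (.w)) (.s)) (.pow (.t) 2)) (.v))) (.mul (.mul (.mul (.mul (.c (-96)) (.T)) (.w)) (.s)) (.pow (.t) 3))) (.mul (.mul (.mul (.mul (.c (-16)) (.T)) (.w)) (.pow (.s) 2)) (.pow (.u) 2))) (.mul (.mul (.mul (.mul (.mul (.c (-16)) (.T)) (.w)) (.pow (.s) 2)) (.pow (.u) 2)) (.v))) (.mul (.mul (.mul (.mul (.mul (.c (-16)) (.T)) (.w)) (.pow (.s) 2)) (.t)) (.pow (.u) 2))) (.mul (.mul (.mul (.mul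 (.c (-96)) (.T)) (.w)) (.pow (.s) 2)) (.pow (.t) 2))) (.mul (.mul (.mul (.mul (.mul (.c (-96)) (.T)) (.w)) (.pow (.s) 2)) (.pow (.t) 2)) (.v))) (.mul (.mul (.mul (.mul (.c (-96)) (.T)) (.w)) (.pow (.s) 2)) (.pow (.t) 3))) (.mul (.mul (.mul (.mul (.c (-16)) (.T)) (.w)) (.pow (.s) 3)) (.pow (.u) 2))) (.mul (.mul (.mul (.mul (.c (-96)) (.T)) (.w)) (.pow (.s) 3)) (.pow (.t) 2))),
    .c 0⟩

/-- free row column 60 -/
def rf60 : RFz := ⟨⟨3, 6, 0, [(2, 1)]⟩, [0, 0, -1603067959080, 6268710990840, 19105879019160, -136193631998880, 373819985287560, -727494526185600, 1061242473084480, -1096616387412000, 764050003009920, -339837798553320, 86842139610960, -9625923279360],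
    .mul (.mul (.s) (.pow (.P) 3)) (.add (.mul (.mul (.c 780) (.P)) (.s)) (.mul (.mul (.c 360) (.T)) (.pow (.s) 2))),
    .c 0⟩

/-- free row column 61 -/
def rf61 : RFz := ⟨⟨3, 6, 1, [(2, 1)]⟩, [0, 0, 0, 801533979540, 5872308728580, -57661390817100, 147329390673360, -186909992643780, 228588184641600, -403029783505440, 548308193706000, -432321434354880, 180384969954420, -31341100449960],
    .mul (.mul (.s) (.pow (.P) 3)) (.add (.mul (.mul (.mul (.c 840) (.P)) (.s)) (.t)) (.mul (.mul (.mul (.c 360) (.T)) (.pow (.s) 2)) (.t))),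
    .c 0⟩

/-- free row column 62 -/
def rf62 : RFz := ⟨⟨3, 7, 2, [(2, 1)]⟩, [0, 0, 0, 0, 90916854250680, 666087590070360, -6540449186968200, 16711362313521120, -21200933451308760, 25928431229347200, -45715092586188480, 62193815114652000, -49037602696824960, 20460809449115640, -3554976251038320],
    .mul (.mul (.s) (.pow (.P) 2)) (.add (.add (.add (.add (.add (.add (.add (.add (.add (.add (.add (.add (.add (.add (.add (.add (.mul (.mul (.mul (.c 900) (.P)) (.s)) (.pow (.u) 2)) (.mul (.mul (.mul (.c 26) (.P)) (.pow (.s) 2)) (.v))) (.mul (.mul (.mul (.c 26) (.P)) (.pow (.s) 2)) (.t))) (.mul (.mul (.c 22) (.P)) (.pow (.s) 3))) (.mul (.mul (.mul (.c (-4)) (.P)) (.w)) (.v))) (.mul (.mul (.mul (.c (-4)) (.P)) (.w)) (.t))) (.mul (.mul (.mul (.c (-8)) (.P)) (.w)) (.s))) (.mul (.mul (.mul (.mul (.c (-4)) (.P)) (.w)) (.s)) (.v))) (.mul (.mul (.mul (.mul (.c (-4)) (.P)) (.w)) (.s)) (.t))) (.mul (.mul (.mul (.c (-8)) (.P)) (.w)) (.pow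 (.s) 2))) (.mul (.mul (.mul (.c 420) (.T)) (.pow (.s) 2)) (.pow (.u) 2))) (.mul (.mul (.mul (.mul (.c (-14)) (.T)) (.w)) (.s)) (.v))) (.mul (.mul (.mul (.mul (.c (-14)) (.T)) (.w)) (.s)) (.t))) (.mul (.mul (.mul (.c (-14)) (.T)) (.w)) (.pow (.s) 2))) (.mul (.mul (.mul (.mul (.c (-14)) (.T)) (.w)) (.pow (.s) 2)) (.v))) (.mul (.mul (.mul (.mul (.c (-14)) (.T)) (.w)) (.pow (.s) 2)) (.t))) (.mul (.mul (.mul (.c (-14)) (.T)) (.w)) (.pow (.s) 3))),
    .c 0⟩

/-- free row column 63 -/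
def rf63 : RFz := ⟨⟨3, 6, 0, [(3, 1)]⟩, [0, 0, 0, 1030543687980, 7550111222460, -74136073907700, 189423502294320, -240312847684860, 293899094539200, -518181150221280, 704967677622000, -555841844170560, 231923532798540, -40295700578520],
    .mul (.mul (.pow (.s) 2) (.pow (.P) 3)) (.add (.mul (.mul (.c 840) (.P)) (.s)) (.mul (.mul (.c 360) (.T)) (.pow (.s) 2))),
    .c 0⟩

/-- the free value columns -/
def lf : List VFz := [vf0, vf1, vf2, vf3, vf4, vf5, vf6, vf7, vf8, vf9, vf10, vf11, vf12, vf13, vf14, vf15, vf16, vf17, vf18, vf19, vf20, vf21, vf22, vf23, vf24, vf25, vf26, vf27, vf28, vf29, vf30, vf31, vf32, vf33, vf34, vf35, vf36, vf37, vf38, vf39, vf40, vf41, vf42, vf43, vf44, vf45, vf46, vf47, vf48, vf49, vf50, vf51, vf52, vf53, vf54, vf55, vf56, vf57, vf58, vf59, vf60, vf61, vf62, vf63, vf64, vf65, vf66, vf67, vf68, vf69, vf70, vf71, vf72, vf73, vf74, vf75, vf76, vf77, vf78, vf79, vf80, vf81, vf82, vf83, vf84, vf85, vf86,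 vf87, vf88, vf89, vf90, vf91, vf92, vf93, vf94, vf95, vf96, vf97, vf98, vf99, vf100, vf101, vf102, vf103, vf104, vf105, vf106, vf107, vf108, vf109, vf110, vf111, vf112, vf113, vf114, vf115, vf116, vf117, vf118, vf119, vf120, vf121, vf122, vf123, vf124, vf125, vf126, vf127, vf128, vf129, vf130, vf131, vf132, vf133, vf134, vf135, vf136, vf137, vf138, vf139, vf140, vf141, vf142, vf143, vf144, vf145, vf146, vf147, vf148, vf149, vf150, vf151, vf152, vf153, vf154, vf155, vf156, vf157, vf158, vf159, vf160, vf161, vf162, vf163, vf164, vf165, vf166, vf167, vf168, vf169, vf170, vf171, vf172, vf173, vf174, vf175, vf176, vf177, vf178, vf179, vf180, vf181, vf182, vf183, vf184, vf185, vf186, vf187, vf188, vf189, vf190, vf191, vf192, vf193, vf194, vf195, vf196, vf197, vf198, vf199, vf200, vf201, vf202, vf203, vf204, vf205, vf206, vf207, vf208, vf209]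

/-- the free row columns -/
def rf : List RFz := [rf0, rf1, rf2, rf3, rf4, rf5, rf6, rf7, rf8, rf9, rf10, rf11, rf12, rf13, rf14, rf15, rf16, rf17, rf18, rf19, rf20, rf21, rf22, rf23, rf24, rf25, rf26, rf27, rf28, rf29, rf30, rf31, rf32, rf33, rf34, rf35, rf36, rf37, rf38, rf39, rf40, rf41, rf42, rf43, rf44, rf45, rf46, rf47, rf48, rf49, rf50, rf51, rf52, rf53, rf54, rf55, rf56, rf57, rf58, rf59, rf60, rf61, rf62, rf63]

/-- all columns -/
def cl : List Cz := clZ (VD dl c0 kB kF lb lf) (RD dl c0 kB kF rb rf)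

set_option maxRecDepth 100000 in
lemma ok_all : okD lb lf rb rf = true := by decide +kernel

set_option maxRecDepth 100000 in
/-- the errors -/
lemma err_ok : errZ 12 3 5 cl 337748427 168875 = true := by decide +kernel

end

end Vale.Agent.P224.S11.Z11
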